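import Mathlib

/-!
Stability of nondegenerate zeros: if `Φ : ℝ × E → F` is `C¹`, `K` is compact, the zeros of `Φ(0,·)`
in `K` are at most `n` in number and have an injective derivative, then the same holds for
`Φ(κ,·)` for small `κ`.
-/

open Set Filter Topology Metric
open scoped ContDiff

namespace Vale.Agent.P265.H185

variable {E F : Type*} [NormedAddCommGroup E] [NormedSpace ℝ E] [FiniteDimensional ℝ E]
  [NormedAddCommGroup F] [NormedSpace ℝ F]

/-- Uniform local injectivity near a point where the partial derivative is injective. -/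
theorem local_inj {Φ : ℝ × E → F} (hΦ : ContDiff ℝ 1 Φ) {x₀ : E}
    (hinj : ∀ v : E, fderiv ℝ Φ (0, x₀) (0, v) = 0 → v = 0) :
    ∃ δ > 0, ∀ κ : ℝ, |κ| < δ →
      (∀ x ∈ ball x₀ δ, ∀ y ∈ ball x₀ δ, Φ (κ, x) = Φ (κ, y) → x = y) ∧
      ∀ x ∈ ball x₀ δ, ∀ v : E, fderiv ℝ Φ (κ, x) (0, v) = 0 → v = 0 := by
  set A : ℝ × E → E →L[ℝ] F := fun p => (fderiv ℝ Φ p).comp (ContinuousLinearMap.inr ℝ ℝ E) with hA
  have hAcont : Continuous A := by
    have h1 : Continuous (fderiv ℝ Φ) := hΦ.continuous_fderiv (by norm_num)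
    exact h1.clm_comp continuous_const
  have hAinj : Function.Injective (A (0, x₀)) := by
    rw [injective_iff_map_eq_zero]
    intro v hv
    exact hinj v hv
  -- lower bound
  obtain ⟨c, hc, hbound⟩ : ∃ c > 0, ∀ v : E, c * ‖v‖ ≤ ‖A (0, x₀) v‖ := by
    obtain ⟨K, hK, hK2⟩ := (A (0, x₀)).toLinearMap.exists_antilipschitzWith
      (LinearMap.ker_eq_bot.2 hAinj)
    refine ⟨(K : ℝ)⁻¹, by positivity, fun v => ?_⟩
    have h := hK2.le_mul_dist v 0
    rw [dist_zero_right, map_zero, dist_zero_right] at h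
    rw [inv_mul_le_iff₀ (by positivity)]
    exact h
  have hnhds : ∀ᶠ p in 𝓝 ((0 : ℝ), x₀), ‖A p - A (0, x₀)‖ < c / 2 := by
    have h2 : Tendsto (fun p => ‖A p - A (0, x₀)‖) (𝓝 ((0 : ℝ), x₀)) (𝓝 0) := by
      have h3 : Continuous fun p => ‖A p - A (0, x₀)‖ := (hAcont.sub continuous_const).norm
      have := h3.tendsto ((0 : ℝ), x₀)
      simpa using this
    exact h2.eventually (gt_mem_nhds (by positivity))
  obtain ⟨δ, hδ, hδ2⟩ := Metric.eventually_nhds_iff.1 hnhds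
  refine ⟨δ, hδ, fun κ hκ => ?_⟩
  have hclose : ∀ x ∈ ball x₀ δ, ‖A (κ, x) - A (0, x₀)‖ < c / 2 := by
    intro x hx
    apply hδ2
    rw [Prod.dist_eq]
    refine max_lt ?_ hx
    simpa [Real.dist_eq] using hκ
  constructor
  · intro x hx y hy hxy
    have hderiv : ∀ z ∈ ball x₀ δ, HasFDerivWithinAt (fun x => Φ (κ, x)) (A (κ, z)) (ball x₀ δ) z := by
      intro z _
      have h1 : HasFDerivAt Φ (fderiv ℝ Φ (κ, z)) (κ, z) :=
        (hΦ.differentiable (by norm_num) (κ, z)).hasFDerivAt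
      have h2 : HasFDerivAt (fun x : E => (κ, x)) (ContinuousLinearMap.inr ℝ ℝ E) z := by
        exact hasFDerivAt_prodMk_right κ z
      exact (h1.comp z h2).hasFDerivWithinAt
    have h3 := (convex_ball x₀ δ).norm_image_sub_le_of_norm_hasFDerivWithin_le'
      (f := fun x => Φ (κ, x)) (φ := A (0, x₀)) (C := c / 2) hderiv
      (fun z hz => (hclose z hz).le) hx hy
    rw [hxy, sub_self, zero_sub, norm_neg] at h3
    have h4 := hbound (y - x)
    have h5 : ‖y - x‖ = 0 := by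
      have := norm_nonneg (y - x)
      nlinarith
    rw [norm_eq_zero, sub_eq_zero] at h5
    exact h5.symm
  · intro x hx v hv
    have h1 : A (κ, x) v = 0 := hv
    have h2 : ‖(A (κ, x) - A (0, x₀)) v‖ ≤ c / 2 * ‖v‖ :=
      ((A (κ, x) - A (0, x₀)).le_opNorm v).trans (by
        have := (hclose x hx).le
        gcongr)
    rw [_root_.sub_apply, h1, zero_sub, norm_neg] at h2
    have h4 := hbound v
    have h5 : ‖v‖ = 0 := by
      have := norm_nonneg v
      nlinarith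
    exact norm_eq_zero.1 h5

/-- Stability of nondegenerate zeros in a compact set. -/
theorem zeros_stable {Φ : ℝ × E → F} (hΦ : ContDiff ℝ 1 Φ) {K : Set E} (hK : IsCompact K)
    (hinj : ∀ x ∈ K, Φ (0, x) = 0 → ∀ v : E, fderiv ℝ Φ (0, x) (0, v) = 0 → v = 0) :
    ∃ δ > 0, ∀ κ : ℝ, |κ| < δ →
      {x ∈ K | Φ (κ, x) = 0}.encard ≤ {x ∈ K | Φ (0, x) = 0}.encard ∧
      ∀ x ∈ K, Φ (κ, x) = 0 → ∀ v : E, fderiv ℝ Φ (κ, x) (0, v) = 0 → v = 0 := by
  classical
  set Z : Set E := {x ∈ K | Φ (0, x) = 0} with hZ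
  have hZc : IsCompact Z := by
    have : Z = K ∩ (fun x => Φ (0, x)) ⁻¹' {0} := rfl
    rw [this]
    apply hK.inter_right
    exact isClosed_singleton.preimage (by have := hΦ.continuous; fun_prop)
  choose! d hd hd2 using fun x (hx : x ∈ Z) => local_inj hΦ (x₀ := x) (hinj x hx.1 hx.2)
  -- a finite subcover, with radius `d x`
  obtain ⟨T, hTZ, hTcov⟩ := hZc.elim_nhds_subcover (fun x => ball x (d x))
    (fun x hx => ball_mem_nhds x (hd x hx))
  set U : Set E := ⋃ x ∈ T, ball x (d x) with hU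
  have hUo : IsOpen U := isOpen_biUnion fun _ _ => isOpen_ball
  have hKU : IsCompact (K \ U) := hK.diff hUo
  -- no zeros outside `U`
  have hout : ∀ᶠ κ in 𝓝 (0 : ℝ), ∀ x ∈ K \ U, Φ (κ, x) ≠ 0 := by
    apply hKU.eventually_forall_of_forall_eventually (P := fun κ x => Φ (κ, x) ≠ 0)
    intro x hx
    have hne : Φ (0, x) ≠ 0 := fun h => hx.2 (hTcov ⟨hx.1, h⟩)
    exact (hΦ.continuous.tendsto (0, x)).eventually (isOpen_compl_singleton.mem_nhds hne)
  have hin : ∀ᶠ κ in 𝓝 (0 : ℝ), ∀ x ∈ T, |κ| < d x := by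
    rw [Filter.eventually_all_finset]
    intro x hx
    have h1 : Tendsto (fun κ : ℝ => |κ|) (𝓝 0) (𝓝 0) := by
      have := (continuous_abs (G := ℝ)).tendsto 0
      simpa using this
    exact h1.eventually (gt_mem_nhds (hd x (hTZ x hx)))
  obtain ⟨δ, hδ, hδ2⟩ := Metric.eventually_nhds_iff.1 (hout.and hin)
  refine ⟨δ, hδ, fun κ hκ => ?_⟩
  obtain ⟨h1, h2⟩ := hδ2 (y := κ) (by simpa [Real.dist_eq] using hκ)
  have hmem : ∀ x ∈ {x ∈ K | Φ (κ, x) = 0}, ∃ t ∈ T, x ∈ ball t (d t) := by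
    intro x hx
    by_contra hcon
    refine h1 x ⟨hx.1, fun hxU => hcon ?_⟩ hx.2
    rw [hU, mem_iUnion₂] at hxU
    obtain ⟨t, ht, hxt⟩ := hxU
    exact ⟨t, ht, hxt⟩
  constructor
  · choose! g hgT hg using hmem
    refine encard_le_encard_of_injOn (f := g) (fun x hx => hTZ _ (hgT x hx)) ?_
    intro x hx y hy hxy
    have hgx := hTZ _ (hgT x hx)
    refine (hd2 (g x) hgx κ (h2 _ (hgT x hx))).1 x (hg x hx) y ?_ (hx.2.trans hy.2.symm)
    rw [hxy]
    exact hg y hy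
  · intro x hxK hx v hv
    obtain ⟨t, ht, hxt⟩ := hmem x ⟨hxK, hx⟩
    exact (hd2 t (hTZ t ht) κ (h2 t ht)).2 x hxt v hv

end Vale.Agent.P265.H185
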