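import Vale.Agent.P265.H185.System
import Vale.Agent.P265.H185.Zeros

/-!
The averaging theorem: fixed points of the time-one map of the field `(κ Y, Z)` near a compact
level set, for small `κ`.
-/

open Set Filter Topology Metric
open scoped ContDiff NNReal

noncomputable section

set_option linter.unusedSectionVars false

namespace Vale.Agent.P265.H185

variable {A B C : Type} [NormedAddCommGroup A] [NormedSpace ℝ A] [FiniteDimensional ℝ A]
  [NormedAddCommGroup B] [NormedSpace ℝ B] [FiniteDimensional ℝ B]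
  [NormedAddCommGroup C] [NormedSpace ℝ C] [FiniteDimensional ℝ C]

theorem averaging {G : A × B → C} (hG : ContDiff ℝ ∞ G) (hcpt : IsCompact {x | ‖G x‖ ≤ 1})
    {Ω : Set (ℝ × (A × B))} (hΩ : IsOpen Ω)
    (hΩG : ∀ t ∈ Icc (0 : ℝ) 1, ∀ x, G x = 0 → (t, x) ∈ Ω)
    {Y : ℝ × (A × B) → A} {Z : ℝ × (A × B) → B}
    (hY : ContDiffOn ℝ ∞ Y Ω) (hZ : ContDiffOn ℝ ∞ Z Ω)
    (hYper : ∀ t x, Y (t + 1, x) = Y (t, x)) (hZper : ∀ t x, Z (t + 1, x) = Z (t, x))
    (hGY : ∀ t ∈ Icc (0 : ℝ) 1, ∀ x, (t, x) ∈ Ω → fderiv ℝ G x (Y (t, x), 0) = 0)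
    (hGZ : ∀ t ∈ Icc (0 : ℝ) 1, ∀ x, (t, x) ∈ Ω → fderiv ℝ G x (0, Z (t, x)) = 0)
    {S : ℝ → A × B → B} {a : ℝ → A × B → A}
    (hS0 : ∀ x, (∀ t ∈ Icc (0 : ℝ) 1, (t, x) ∈ Ω) → S 0 x = x.2)
    (ha0 : ∀ x, (∀ t ∈ Icc (0 : ℝ) 1, (t, x) ∈ Ω) → a 0 x = 0)
    (hSG : ∀ x, (∀ t ∈ Icc (0 : ℝ) 1, (t, x) ∈ Ω) → ∀ t ∈ Icc (0 : ℝ) 1, G (x.1, S t x) = G x)
    (hS : ∀ x, (∀ t ∈ Icc (0 : ℝ) 1, (t, x) ∈ Ω) →
      ∀ t ∈ Icc (0 : ℝ) 1, HasDerivAt (fun s => S s x) (Z (t, (x.1, S t x))) t)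
    (ha : ∀ x, (∀ t ∈ Icc (0 : ℝ) 1, (t, x) ∈ Ω) →
      ∀ t ∈ Icc (0 : ℝ) 1, HasDerivAt (fun s => a s x) (Y (t, (x.1, S t x))) t)
    (hinj : ∀ x, G x = 0 → a 1 x = 0 → S 1 x = x.2 → ∀ ξ : A × B, fderiv ℝ G x ξ = 0 →
      fderiv ℝ (a 1) x ξ = 0 → fderiv ℝ (S 1) x ξ = ξ.2 → ξ = 0) :
    ∃ φ : ℝ → ℝ → A × B → A × B,
      ContDiff ℝ ∞ (fun p : ℝ × ℝ × (A × B) => φ p.1 p.2.1 p.2.2) ∧
      (∀ κ x, φ κ 0 x = x) ∧ (∀ κ t x, G (φ κ t x) = G x) ∧
      (∀ κ t x, G x = 0 →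
        HasDerivAt (fun s => φ κ s x) (κ • Y (t, φ κ t x), Z (t, φ κ t x)) t) ∧
      ∃ δ > 0, ∀ κ, 0 < κ → κ < δ →
        {x | G x = 0 ∧ φ κ 1 x = x}.encard ≤ {x | G x = 0 ∧ a 1 x = 0 ∧ S 1 x = x.2}.encard ∧
        ∀ x, G x = 0 → φ κ 1 x = x → ∀ ξ, fderiv ℝ G x ξ = 0 →
          fderiv ℝ (φ κ 1) x ξ = ξ → ξ = 0 := by
  obtain ⟨δ₀, hδ₀, hδ₁, htube⟩ := exists_tube hG.continuous hcpt hΩ hΩG
  set Y' : ℝ × (A × B) → A := cut G δ₀ hδ₀ Y with hY'
  set Z' : ℝ × (A × B) → B := cut G δ₀ hδ₀ Z with hZ'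
  have hYs : ContDiff ℝ ∞ Y' := cut_contDiff hG hΩ hδ₀ htube hY hYper
  have hZs : ContDiff ℝ ∞ Z' := cut_contDiff hG hΩ hδ₀ htube hZ hZper
  obtain ⟨c₁, hc₁⟩ := cut_bounded hG hcpt hΩ hδ₀ hδ₁ htube hY hYper
  obtain ⟨c₂, hc₂⟩ := cut_bounded hG hcpt hΩ hδ₀ hδ₁ htube hZ hZper
  obtain ⟨φ, α, hφ, hα, hφ0, hα0, hφd, hαd, hφα⟩ := exists_family hYs hZs (c := max c₁ c₂)
    (fun p => (hc₁ p).trans (le_max_left _ _)) (fun p => (hc₂ p).trans (le_max_right _ _))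
  -- the first integrals, for the cut off field
  have hDG : ∀ (κ t : ℝ) (x : A × B), fderiv ℝ G x (κ • Y' (t, x), Z' (t, x)) = 0 := by
    intro κ t x
    rcases le_or_gt ‖G x‖ δ₀ with hx | hx
    · have hfr : Int.fract t ∈ Icc (0 : ℝ) 1 := ⟨Int.fract_nonneg t, (Int.fract_lt_one t).le⟩
      have hmem : (Int.fract t, x) ∈ Ω := htube _ hfr x hx
      have h1 := hGY _ hfr x hmem
      have h2 := hGZ _ hfr x hmem
      have h3 : Y (Int.fract t, x) = Y (t, x) := by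
        have := periodic_int hYper ⌊t⌋ (Int.fract t) x
        rw [Int.fract_add_floor] at this
        exact this.symm
      have h4 : Z (Int.fract t, x) = Z (t, x) := by
        have := periodic_int hZper ⌊t⌋ (Int.fract t) x
        rw [Int.fract_add_floor] at this
        exact this.symm
      rw [h3] at h1
      rw [h4] at h2
      have h5 : ((κ • Y' (t, x), Z' (t, x)) : A × B) =
          (κ * chi (C := C) δ₀ hδ₀ (G x)) • (Y (t, x), 0) +
            (chi (C := C) δ₀ hδ₀ (G x)) • (0, Z (t, x)) := by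
        simp [hY', hZ', cut, smul_smul]
      rw [h5, map_add, map_smul, map_smul, h1, h2, smul_zero, smul_zero, add_zero]
    · rw [hY', hZ', cut_zero hx.le, cut_zero hx.le, smul_zero]
      exact map_zero _
  have hGφ : ∀ κ t x, G (φ κ t x) = G x := by
    intro κ t x
    have h1 : ∀ s, HasDerivAt (fun s => G (φ κ s x)) 0 s := by
      intro s
      have h2 : HasFDerivAt G (fderiv ℝ G (φ κ s x)) (φ κ s x) :=
        (hG.differentiable (by simp) _).hasFDerivAt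
      have h3 := h2.comp_hasDerivAt s (hφd κ s x)
      rw [hDG] at h3
      exact h3
    have h3 := is_const_of_deriv_eq_zero (f := fun s => G (φ κ s x))
      (fun t => (h1 t).differentiableAt) (fun t => (h1 t).deriv) t 0
    simp only [hφ0] at h3
    exact h3
  have hφd' : ∀ κ t x, ‖G x‖ ≤ δ₀ / 2 →
      HasDerivAt (fun s => φ κ s x) (κ • Y (t, φ κ t x), Z (t, φ κ t x)) t := by
    intro κ t x hx
    have h1 := hφd κ t x
    rw [hY', hZ', cut_eq (by rw [hGφ]; exact hx), cut_eq (by rw [hGφ]; exact hx)] at h1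
    exact h1
  refine ⟨φ, hφ, hφ0, hGφ, fun κ t x hx => hφd' κ t x (by rw [hx, norm_zero]; positivity), ?_⟩
  -- the explicit solution for `κ = 0`
  have hexpl : ∀ x, ‖G x‖ ≤ δ₀ / 2 → α 0 1 x = a 1 x ∧ (φ 0 1 x).2 = S 1 x := by
    intro x hx
    have hxΩ : ∀ t ∈ Icc (0 : ℝ) 1, (t, x) ∈ Ω := fun t ht => htube t ht x (by linarith)
    have hgs : ContDiff ℝ 1 (fun p : ℝ × (A × B) × A =>
        (((1 : ℝ), ((0 : A), Z' (p.1, p.2.1)), Y' (p.1, p.2.1)) : ℝ × (A × B) × A)) := by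
      have h1 : ContDiff ℝ ∞ (fun p : ℝ × (A × B) × A => Y' (p.1, p.2.1)) :=
        hYs.comp (by fun_prop)
      have h2 : ContDiff ℝ ∞ (fun p : ℝ × (A × B) × A => Z' (p.1, p.2.1)) :=
        hZs.comp (by fun_prop)
      have h3 := h1.of_le (m := 1) (by simp)
      have h4 := h2.of_le (m := 1) (by simp)
      exact contDiff_const.prodMk ((contDiff_const.prodMk h4).prodMk h3)
    have h1 := unique_Icc hgs (c := fun s => (s, φ 0 s x, α 0 s x))
      (c' := fun s => (s, (x.1, S s x), a s x)) ?_ ?_ ?_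
    · have h2 := h1 (x := 1) ⟨zero_le_one, le_rfl⟩
      simp only [Prod.mk.injEq, true_and] at h2
      exact ⟨h2.2, by rw [h2.1]⟩
    · intro t _
      have h2 := hφd 0 t x
      rw [zero_smul] at h2
      exact (hasDerivAt_id t).prodMk (h2.prodMk (hαd 0 t x))
    · intro t ht
      have h2 := hS x hxΩ t ht
      have h3 := ha x hxΩ t ht
      have h4 : ‖G (x.1, S t x)‖ ≤ δ₀ / 2 := by rw [hSG x hxΩ t ht]; exact hx
      simp only [hY', hZ', cut_eq h4]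
      exact (hasDerivAt_id t).prodMk (((hasDerivAt_const t x.1).prodMk h2).prodMk h3)
    · simp only [hφ0, hα0, hS0 x hxΩ, ha0 x hxΩ]
  -- near the level set
  have hnear : ∀ x, G x = 0 → ∀ᶠ y in 𝓝 x, ‖G y‖ ≤ δ₀ / 2 := by
    intro x hx
    have h1 : Tendsto (fun y => ‖G y‖) (𝓝 x) (𝓝 0) := by
      have := hG.continuous.norm.tendsto x
      rwa [hx, norm_zero] at this
    exact (h1.eventually (gt_mem_nhds (by positivity : (0 : ℝ) < δ₀ / 2))).mono fun y hy => hy.le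
  -- the function whose zeros we study
  set Ψ : ℝ × (A × B) → A × B × C :=
    fun p => (α p.1 1 p.2, (φ p.1 1 p.2).2 - p.2.2, G p.2) with hΨ
  have hα1 : ContDiff ℝ ∞ (fun p : ℝ × (A × B) => α p.1 1 p.2) :=
    hα.comp (f := fun p : ℝ × (A × B) => (p.1, (1 : ℝ), p.2)) (by fun_prop)
  have hφ1 : ContDiff ℝ ∞ (fun p : ℝ × (A × B) => φ p.1 1 p.2) :=
    hφ.comp (f := fun p : ℝ × (A × B) => (p.1, (1 : ℝ), p.2)) (by fun_prop)
  have hGs : ContDiff ℝ ∞ (fun p : ℝ × (A × B) => G p.2) := hG.comp contDiff_snd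
  have hΨs : ContDiff ℝ ∞ Ψ := by
    rw [hΨ]
    fun_prop
  -- derivative of `Ψ`
  have hDΨ : ∀ (κ : ℝ) (x ξ : A × B), fderiv ℝ Ψ (κ, x) (0, ξ) =
      (fderiv ℝ (α κ 1) x ξ, (fderiv ℝ (φ κ 1) x ξ).2 - ξ.2, fderiv ℝ G x ξ) := by
    intro κ x ξ
    have hi : HasFDerivAt (fun y : A × B => (κ, y)) (ContinuousLinearMap.inr ℝ ℝ (A × B)) x :=
      hasFDerivAt_prodMk_right κ x
    have h1 : HasFDerivAt (fun y => Ψ (κ, y)) ((fderiv ℝ Ψ (κ, x)).comp
        (ContinuousLinearMap.inr ℝ ℝ (A × B))) x :=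
      ((hΨs.differentiable (by simp) (κ, x)).hasFDerivAt).comp x hi
    have h2 : DifferentiableAt ℝ (α κ 1) x := by
      have := (hα1.differentiable (by simp) (κ, x)).comp x hi.differentiableAt
      exact this
    have h3 : DifferentiableAt ℝ (φ κ 1) x := by
      have := (hφ1.differentiable (by simp) (κ, x)).comp x hi.differentiableAt
      exact this
    have h4 : DifferentiableAt ℝ G x := hG.differentiable (by simp) x
    have h5 : HasFDerivAt (fun y => Ψ (κ, y)) ((fderiv ℝ (α κ 1) x).prod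
        ((((ContinuousLinearMap.snd ℝ A B).comp (fderiv ℝ (φ κ 1) x)) -
          ContinuousLinearMap.snd ℝ A B).prod (fderiv ℝ G x))) x := by
      refine h2.hasFDerivAt.prodMk (HasFDerivAt.prodMk (HasFDerivAt.sub ?_ ?_) h4.hasFDerivAt)
      · exact (ContinuousLinearMap.snd ℝ A B).hasFDerivAt.comp x h3.hasFDerivAt
      · exact (ContinuousLinearMap.snd ℝ A B).hasFDerivAt
    have h6 := h1.unique h5
    have h7 := congrArg (fun L => L ξ) h6
    simpa using h7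
  have hzero : ∀ x, G x = 0 → (Ψ (0, x) = 0 ↔ a 1 x = 0 ∧ S 1 x = x.2) := by
    intro x hx
    obtain ⟨h1, h2⟩ := hexpl x (by rw [hx, norm_zero]; positivity)
    simp only [hΨ, h1, h2, hx, Prod.mk_eq_zero, sub_eq_zero, and_true]
  have hK : IsCompact {x | G x = 0} := by
    apply hcpt.of_isClosed_subset (isClosed_eq hG.continuous continuous_const)
    intro x hx
    have hx' : G x = 0 := hx
    show ‖G x‖ ≤ 1
    rw [hx', norm_zero]
    exact zero_le_one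
  obtain ⟨δ, hδ, hδ2⟩ := zeros_stable (hΨs.of_le (by simp)) hK (by
    intro x hx h0 ξ hξ
    have hx' : G x = 0 := hx
    obtain ⟨h1, h2⟩ := (hzero x hx').1 h0
    rw [hDΨ] at hξ
    simp only [Prod.mk_eq_zero, sub_eq_zero] at hξ
    obtain ⟨h3, h4, h5⟩ := hξ
    refine hinj x hx' h1 h2 ξ h5 ?_ ?_
    · have h6 : α 0 1 =ᶠ[𝓝 x] a 1 := (hnear x hx').mono fun y hy => (hexpl y hy).1
      rw [← h6.fderiv_eq]
      exact h3
    · have h6 : (fun y => (φ 0 1 y).2) =ᶠ[𝓝 x] S 1 :=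
        (hnear x hx').mono fun y hy => (hexpl y hy).2
      rw [← h6.fderiv_eq]
      have h7 : DifferentiableAt ℝ (φ 0 1) x := by
        have := (hφ1.differentiable (by simp) (0, x)).comp x
          (hasFDerivAt_prodMk_right (𝕜 := ℝ) (0 : ℝ) x).differentiableAt
        exact this
      have h8 : fderiv ℝ (fun y => (φ 0 1 y).2) x =
          (ContinuousLinearMap.snd ℝ A B).comp (fderiv ℝ (φ 0 1) x) :=
        ((ContinuousLinearMap.snd ℝ A B).hasFDerivAt.comp x h7.hasFDerivAt).fderiv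
      rw [h8]
      exact h4)
  refine ⟨δ, hδ, fun κ hκ hκδ => ?_⟩
  obtain ⟨h1, h2⟩ := hδ2 κ (by rw [abs_of_pos hκ]; exact hκδ)
  have hfix : ∀ x, G x = 0 → φ κ 1 x = x → Ψ (κ, x) = 0 := by
    intro x hx hfx
    have h3 := hφα κ 1 x
    rw [hfx] at h3
    have h4 : κ • α κ 1 x = 0 := by
      have : x.1 + κ • α κ 1 x = x.1 + 0 := by rw [add_zero]; exact h3.symm
      exact add_left_cancel this
    have h5 : α κ 1 x = 0 := by
      rcases smul_eq_zero.1 h4 with h | h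
      · exact absurd h hκ.ne'
      · exact h
    simp only [hΨ, h5, hfx, sub_self, hx]
    rfl
  constructor
  · calc {x | G x = 0 ∧ φ κ 1 x = x}.encard
        ≤ {x ∈ {x | G x = 0} | Ψ (κ, x) = 0}.encard :=
          encard_le_encard fun x hx => ⟨hx.1, hfix x hx.1 hx.2⟩
      _ ≤ {x ∈ {x | G x = 0} | Ψ (0, x) = 0}.encard := h1
      _ ≤ {x | G x = 0 ∧ a 1 x = 0 ∧ S 1 x = x.2}.encard :=
          encard_le_encard fun x hx => ⟨hx.1, (hzero x hx.1).1 hx.2⟩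
  · intro x hx hfx ξ hξG hξ
    refine h2 x hx (hfix x hx hfx) ξ ?_
    rw [hDΨ, hξG, hξ]
    have h3 : DifferentiableAt ℝ (φ κ 1) x := by
      have := (hφ1.differentiable (by simp) (κ, x)).comp x
        (hasFDerivAt_prodMk_right (𝕜 := ℝ) κ x).differentiableAt
      exact this
    have h4 : DifferentiableAt ℝ (α κ 1) x := by
      have := (hα1.differentiable (by simp) (κ, x)).comp x
        (hasFDerivAt_prodMk_right (𝕜 := ℝ) κ x).differentiableAt
      exact this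
    have h5 : HasFDerivAt (fun y => (φ κ 1 y).1) ((ContinuousLinearMap.fst ℝ A B).comp
        (fderiv ℝ (φ κ 1) x)) x :=
      (ContinuousLinearMap.fst ℝ A B).hasFDerivAt.comp x h3.hasFDerivAt
    have h6 : HasFDerivAt (fun y : A × B => y.1 + κ • α κ 1 y)
        (ContinuousLinearMap.fst ℝ A B + κ • fderiv ℝ (α κ 1) x) x :=
      (ContinuousLinearMap.fst ℝ A B).hasFDerivAt.add (h4.hasFDerivAt.const_smul κ)
    have h7 : (fun y => (φ κ 1 y).1) = fun y : A × B => y.1 + κ • α κ 1 y := by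
      funext y
      exact hφα κ 1 y
    rw [h7] at h5
    have h8 := congrArg (fun L => L ξ) (h5.unique h6)
    simp only [ContinuousLinearMap.comp_apply, hξ, ContinuousLinearMap.coe_fst', _root_.add_apply,
      _root_.smul_apply] at h8
    have h9 : κ • (fderiv ℝ (α κ 1) x) ξ = 0 := by
      have : ξ.1 + κ • (fderiv ℝ (α κ 1) x) ξ = ξ.1 + 0 := by rw [add_zero]; exact h8.symm
      exact add_left_cancel this
    rcases smul_eq_zero.1 h9 with h | h
    · exact absurd h hκ.ne'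
    · rw [h, sub_self]
      rfl

end Vale.Agent.P265.H185
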