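import Vale.Agent.P265.H185.Upper

/-! From the functions `af`, `Sf` of the limit system to polynomial equations. -/

open Module Set
open scoped Quaternion ContDiff Topology

noncomputable section

set_option maxSynthPendingDepth 3

namespace Vale.Agent.P265.Dis

open Vale.Agent.P265.Loc H185

/-- `P = c (z1 + z2 j)`. -/
def Pw (w : A) : ℍ[ℝ] := cL w.1 * P0 w

/-- The derivative of `P`. -/
def DPw (w b : A) : ℍ[ℝ] := cL b.1 * P0 w + cL w.1 * P0 b

/-- `⟨conj P DP(b), conj g0 v g0⟩` -/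
def hC (x : E) (b : A) : ℝ := inner ℝ (star (Pw x.1) * DPw x.1 b) (star g0 * x.2 * g0)

lemma Pw_ne {x : E} (hx : G x = 0) : Pw x.1 ≠ 0 := by
  have := Qp_ne (b := 1) ⟨zero_le_one, le_rfl⟩ hx
  rwa [Qp_one] at this

lemma hasFDerivAt_P0 (w : A) : ∃ L : A →L[ℝ] ℍ[ℝ], (∀ b, L b = P0 b) ∧ HasFDerivAt P0 L w := by
  let L : A →L[ℝ] ℍ[ℝ] := LinearMap.toContinuousLinearMap
    { toFun := P0
      map_add' := by
        intro a b
        simp only [P0, Prod.fst_add, Prod.snd_add, map_add, add_mul]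
        abel
      map_smul' := by
        intro r a
        simp only [P0, Prod.smul_fst, Prod.smul_snd, map_smul, smul_mul_assoc, smul_add,
          RingHom.id_apply] }
  exact ⟨L, fun b => rfl, L.hasFDerivAt⟩

lemma fderiv_Pw (w b : A) : fderiv ℝ Pw w b = DPw w b := by
  obtain ⟨L, hL, hL2⟩ := hasFDerivAt_P0 w
  have h1 : HasFDerivAt (fun w : A => cL w.1)
      (cL.comp (ContinuousLinearMap.fst ℝ ℂ (ℂ × ℂ × ℝ))) w :=
    cL.hasFDerivAt.comp w (ContinuousLinearMap.fst ℝ ℂ (ℂ × ℂ × ℝ)).hasFDerivAt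
  have h2 : HasFDerivAt Pw _ w := h1.mul' hL2
  rw [h2.fderiv]
  simp [DPw, hL, add_comm]

lemma contDiff_Pw : ContDiff ℝ ∞ Pw := by
  have h1 := contDiff_P0
  unfold Pw
  fun_prop

lemma fderiv_Qp_one (w b : A) : fderiv ℝ Qp (1, w) (0, b) = DPw w b := by
  have h2 : HasFDerivAt (fun w => Qp (1, w)) ((fderiv ℝ Qp (1, w)).comp
      (ContinuousLinearMap.inr ℝ ℝ A)) w :=
    ((contDiff_Qp.differentiable (by simp) (1, w)).hasFDerivAt).comp w
      (hasFDerivAt_prodMk_right (1 : ℝ) w)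
  have h3 : (fun w => Qp (1, w)) = Pw := funext Qp_one
  rw [h3] at h2
  have h4 := congrArg (fun L => L b) h2.fderiv
  rw [← fderiv_Pw, h4]
  simp

lemma stp1 : stp 1 = 1 := stp_one (by norm_num)

lemma conj_neg_g0 (v : ℍ[ℝ]) : (-g0)⁻¹ * v * (-g0) = g0⁻¹ * v * g0 := by
  rw [inv_neg, mul_neg, neg_mul, neg_mul, neg_neg]

lemma normSq_g0 : Quaternion.normSq g0 = 2 := by
  rw [Quaternion.normSq_def']
  simp
  norm_num

lemma star_eq (q : ℍ[ℝ]) : star q = Quaternion.normSq q • q⁻¹ := by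
  have h : q⁻¹ = (Quaternion.normSq q)⁻¹ • star q := rfl
  rw [h, smul_smul]
  rcases eq_or_ne q 0 with rfl | hq
  · simp
  · have hn : Quaternion.normSq q ≠ 0 := by simpa using hq
    rw [mul_inv_cancel₀ hn, one_smul]

lemma hC_eq (x : E) (b : A) : hC x b = Quaternion.normSq (Pw x.1) *
    thQ Qp (stp 1, x.1) ((-g0)⁻¹ * x.2 * (-g0)) b := by
  rw [thQ_apply, stp1, Qp_one, fderiv_Qp_one, conj_neg_g0, hC, star_eq (Pw x.1), star_eq g0,
    normSq_g0]
  simp only [smul_mul_assoc, inner_smul_left, inner_smul_right]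
  rw [real_inner_comm]
  simp only [Pw, conj_trivial]
  ring

lemma hC_eq_omW {x : E} (hx : x.1 ∈ Dom) {b : A} (hb : TanW x.1 b) :
    hC x b = Quaternion.normSq (Pw x.1) * omW x.1 (af Qp JL (-g0) 1 x) b := by
  rw [hC_eq, af, omW_JL hx _ hb]

lemma Sf_eq (x : E) : Sf Qp (-g0) 1 x = Pw x.1 * (g0⁻¹ * x.2 * g0) * (Pw x.1)⁻¹ := by
  rw [Sf, stp1, Qp_one, conj_neg_g0]
  rfl

/-- `(Sf - v) (P conj g0) = P conj g0 v - v P conj g0` -/
lemma Sf_key {x : E} (hP : Pw x.1 ≠ 0) :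
    (Sf Qp (-g0) 1 x - x.2) * (Pw x.1 * star g0) =
      Pw x.1 * star g0 * x.2 - x.2 * (Pw x.1 * star g0) := by
  rw [Sf_eq, sub_mul, star_eq g0]
  congr 1
  have h1 : (Pw x.1)⁻¹ * Pw x.1 = 1 := inv_mul_cancel₀ hP
  have h2 : g0 * g0⁻¹ = 1 := mul_inv_cancel₀ g0_ne
  calc Pw x.1 * (g0⁻¹ * x.2 * g0) * (Pw x.1)⁻¹ * (Pw x.1 * Quaternion.normSq g0 • g0⁻¹)
      = Quaternion.normSq g0 • (Pw x.1 * g0⁻¹ * x.2 * (g0 * ((Pw x.1)⁻¹ * Pw x.1) * g0⁻¹)) := by
        simp only [mul_smul_comm, mul_assoc]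
    _ = Pw x.1 * Quaternion.normSq g0 • g0⁻¹ * x.2 := by
        rw [h1, mul_one, h2, mul_one]
        simp only [mul_smul_comm, smul_mul_assoc]

/-- (B1) -/
theorem bridge_comm {x : E} (hx : G x = 0) (hS : Sf Qp (-g0) 1 x = x.2) :
    Pw x.1 * star g0 * x.2 = x.2 * (Pw x.1 * star g0) := by
  have h := Sf_key (Pw_ne hx)
  rw [hS, sub_self, zero_mul] at h
  exact (sub_eq_zero.1 h.symm)

lemma omW_zero_left (w b : A) : omW w 0 b = 0 := by
  simp [omW, alW, thW, ThW, deW, dfW, ddW]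

/-- (B1) -/
theorem bridge_hC {x : E} (hx : G x = 0) (ha : af Qp JL (-g0) 1 x = 0) {b : A}
    (hb : TanW x.1 b) : hC x b = 0 := by
  rw [hC_eq_omW (mem_Dom hx) hb, ha, omW_zero_left, mul_zero]

lemma contDiffAt_Pinv {x : E} (hP : Pw x.1 ≠ 0) : ContDiffAt ℝ ∞ (fun y : E => (Pw y.1)⁻¹) x := by
  have h0 : Qp (1, x.1) ≠ 0 := by rwa [Qp_one]
  have h1 := contDiffAt_invQ contDiff_Qp (z := (1, x.1)) h0
  have h2 : ContDiffAt ℝ ∞ (fun y : E => ((1 : ℝ), y.1)) x := by fun_prop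
  have h3 := ContDiffAt.comp x (g := fun z => (Qp z)⁻¹) h1 h2
  have h4 : (fun z => (Qp z)⁻¹) ∘ (fun y : E => ((1 : ℝ), y.1)) = fun y : E => (Pw y.1)⁻¹ := by
    funext y
    simp only [Function.comp, Qp_one, Pw]
  rwa [h4] at h3

lemma contDiffAt_Sf {x : E} (hP : Pw x.1 ≠ 0) : ContDiffAt ℝ ∞ (Sf Qp (-g0) 1) x := by
  have h1 : Sf Qp (-g0) 1 = fun x => Pw x.1 * (g0⁻¹ * x.2 * g0) * (Pw x.1)⁻¹ := funext Sf_eq
  rw [h1]
  have h2 : ContDiffAt ℝ ∞ (fun y : E => Pw y.1) x :=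
    (contDiff_Pw.comp contDiff_fst).contDiffAt
  have h3 : ContDiffAt ℝ ∞ (fun y : E => g0⁻¹ * y.2 * g0) x := by fun_prop
  exact (h2.mul h3).mul (contDiffAt_Pinv hP)

lemma contDiffAt_af {x : E} (hx : G x = 0) : ContDiffAt ℝ ∞ (af Qp JL (-g0) 1) x := by
  have hO : IsOpen {y : E | Pw y.1 ≠ 0} :=
    isOpen_ne_fun (contDiff_Pw.continuous.comp continuous_fst) continuous_const
  have hth : ContDiffOn ℝ ∞ (fun y : E => thQ Qp (stp 1, y.1) ((-g0)⁻¹ * y.2 * (-g0)))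
      {y : E | Pw y.1 ≠ 0} := by
    rw [contDiffOn_clm_apply]
    intro ξ y hy
    simp only [thQ_apply, stp1, Qp_one, fderiv_Qp_one, conj_neg_g0]
    have h1 : ContDiffAt ℝ ∞ (fun y : E => DPw y.1 ξ) y := by
      have h2 := contDiff_P0
      have h3 : ContDiff ℝ ∞ (fun y : E => P0 y.1) := h2.comp contDiff_fst
      have h4 : ContDiff ℝ ∞ (fun y : E => DPw y.1 ξ) := by
        unfold DPw
        fun_prop
      exact h4.contDiffAt
    have h5 : ContDiffAt ℝ ∞ (fun y : E => g0⁻¹ * y.2 * g0) y := by fun_prop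
    exact (contDiffAt_const.mul (h5.inner ℝ ((contDiffAt_Pinv hy).mul h1))).contDiffWithinAt
  have h1 : ContDiffAt ℝ ∞ (fun y : E => JL y.1) x :=
    ContDiffAt.comp (g := JL) (f := fun y : E => y.1) x
      (contDiffOn_JL.contDiffAt (isOpen_Dom.mem_nhds (mem_Dom hx))) contDiffAt_fst
  exact h1.clm_apply (hth.contDiffAt (hO.mem_nhds (Pw_ne hx)))

/-- (B2) -/
theorem bridge_comm_deriv {x : E} (hx : G x = 0) (hS : Sf Qp (-g0) 1 x = x.2) {ξ : E}
    (hξ : fderiv ℝ (Sf Qp (-g0) 1) x ξ = ξ.2) :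
    fderiv ℝ (fun x : E => Pw x.1 * star g0 * x.2 - x.2 * (Pw x.1 * star g0)) x ξ = 0 := by
  have hO : IsOpen {y : E | Pw y.1 ≠ 0} :=
    isOpen_ne_fun (contDiff_Pw.continuous.comp continuous_fst) continuous_const
  have hev : (fun x : E => Pw x.1 * star g0 * x.2 - x.2 * (Pw x.1 * star g0)) =ᶠ[𝓝 x]
      fun x : E => (Sf Qp (-g0) 1 x - x.2) * (Pw x.1 * star g0) := by
    filter_upwards [hO.mem_nhds (Pw_ne hx)] with y hy
    exact (Sf_key hy).symm
  rw [hev.fderiv_eq]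
  have h1 : HasFDerivAt (Sf Qp (-g0) 1) (fderiv ℝ (Sf Qp (-g0) 1) x) x :=
    ((contDiffAt_Sf (Pw_ne hx)).differentiableAt (by simp)).hasFDerivAt
  have h2 : HasFDerivAt (fun x : E => Sf Qp (-g0) 1 x - x.2)
      (fderiv ℝ (Sf Qp (-g0) 1) x - ContinuousLinearMap.snd ℝ A B) x :=
    h1.sub (ContinuousLinearMap.snd ℝ A B).hasFDerivAt
  have h3 : DifferentiableAt ℝ (fun x : E => Pw x.1 * star g0) x := by
    have h4 : DifferentiableAt ℝ (fun y : E => Pw y.1) x :=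
      (contDiff_Pw.comp contDiff_fst).differentiable (by simp) x
    exact h4.mul_const _
  have h4 : HasFDerivAt (fun x : E => (Sf Qp (-g0) 1 x - x.2) * (Pw x.1 * star g0)) _ x :=
    h2.mul' h3.hasFDerivAt
  rw [h4.fderiv]
  simp [hS, hξ]

/-- (B2) -/
theorem bridge_hC_deriv {x : E} (hx : G x = 0) (ha : af Qp JL (-g0) 1 x = 0) {ξ : E}
    (hξ : fderiv ℝ (af Qp JL (-g0) 1) x ξ = 0) {b : A → A} (hb : DifferentiableAt ℝ b x.1)
    (htan : ∀ w, TanW w (b w)) : fderiv ℝ (fun x : E => hC x (b x.1)) x ξ = 0 := by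
  have hO : IsOpen {y : E | y.1 ∈ Dom} := isOpen_Dom.preimage continuous_fst
  have hev : (fun x : E => hC x (b x.1)) =ᶠ[𝓝 x] fun y : E => Quaternion.normSq (Pw y.1) *
      Om 0 y (af Qp JL (-g0) 1 y, 0) (b y.1, 0) := by
    filter_upwards [hO.mem_nhds (mem_Dom hx)] with y hy
    rw [hC_eq_omW hy (htan y.1), Om_apply]
    simp
  rw [hev.fderiv_eq]
  have h1 : HasFDerivAt (af Qp JL (-g0) 1) (fderiv ℝ (af Qp JL (-g0) 1) x) x :=
    ((contDiffAt_af hx).differentiableAt (by simp)).hasFDerivAt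
  have h2 : HasFDerivAt (fun y : E => ((af Qp JL (-g0) 1 y, 0) : E))
      ((fderiv ℝ (af Qp JL (-g0) 1) x).prod 0) x := h1.prodMk (hasFDerivAt_const _ _)
  have h3 : HasFDerivAt (Om 0) (fderiv ℝ (Om 0) x) x :=
    ((contDiff_Om 0).differentiable (by simp) x).hasFDerivAt
  have h4 := h3.clm_apply h2
  have h5 : HasFDerivAt (fun y : E => ((b y.1, 0) : E))
      (((fderiv ℝ b x.1).comp (ContinuousLinearMap.fst ℝ A B)).prod 0) x :=
    (hb.hasFDerivAt.comp x (ContinuousLinearMap.fst ℝ A B).hasFDerivAt).prodMk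
      (hasFDerivAt_const _ _)
  have h6 := h4.clm_apply h5
  have h7 : HasFDerivAt (fun y : E => Quaternion.normSq (Pw y.1))
      (fderiv ℝ (fun y : E => Quaternion.normSq (Pw y.1)) x) x := by
    have h8 : (fun y : E => Quaternion.normSq (Pw y.1)) = fun y : E => ‖Pw y.1‖ ^ 2 := by
      funext y
      rw [Quaternion.normSq_eq_norm_mul_self, sq]
    rw [h8]
    exact (((contDiff_norm_sq ℝ).comp (contDiff_Pw.comp contDiff_fst)).differentiable
      (by simp) x).hasFDerivAt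
  have h8 := h7.fun_mul h6
  rw [h8.fderiv]
  have hz : ((0, 0) : E) = 0 := rfl
  simp [ha, hξ, hz]

end Vale.Agent.P265.Dis
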