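import Vale.Agent.P265.H185.Flow

/-!
Cutting off a time dependent, `1`-periodic field near a compact level set.
-/

open Set Filter Topology Metric
open scoped ContDiff

noncomputable section

set_option linter.unusedSectionVars false

namespace Vale.Agent.P265.H185

variable {E C : Type} [NormedAddCommGroup E] [NormedSpace ℝ E] [FiniteDimensional ℝ E]
  [NormedAddCommGroup C] [NormedSpace ℝ C] [FiniteDimensional ℝ C]

omit [NormedSpace ℝ E] [FiniteDimensional ℝ E] [NormedSpace ℝ C] [FiniteDimensional ℝ C] in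
/-- Tube lemma around the compact level set `{G = 0}`. -/
theorem exists_tube {G : E → C} (hG : Continuous G) (hcpt : IsCompact {x | ‖G x‖ ≤ 1})
    {Ω : Set (ℝ × E)} (hΩ : IsOpen Ω) (hΩG : ∀ t ∈ Icc (0 : ℝ) 1, ∀ x, G x = 0 → (t, x) ∈ Ω) :
    ∃ δ > 0, δ ≤ 1 ∧ ∀ t ∈ Icc (0 : ℝ) 1, ∀ x, ‖G x‖ ≤ δ → (t, x) ∈ Ω := by
  set K : Set (ℝ × E) := (Icc (0 : ℝ) 1 ×ˢ {x | ‖G x‖ ≤ 1}) \ Ω with hK
  have hKc : IsCompact K := (isCompact_Icc.prod hcpt).diff hΩ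
  rcases K.eq_empty_or_nonempty with h0 | hne
  · refine ⟨1, one_pos, le_rfl, fun t ht x hx => ?_⟩
    by_contra hcon
    have : (t, x) ∈ K := ⟨⟨ht, hx⟩, hcon⟩
    rw [h0] at this
    exact this
  · obtain ⟨p, hp, hmin⟩ := hKc.exists_isMinOn hne
      (f := fun p : ℝ × E => ‖G p.2‖) (by fun_prop)
    have hpos : 0 < ‖G p.2‖ := by
      rw [norm_pos_iff]
      intro h
      exact hp.2 (hΩG p.1 hp.1.1 p.2 h)
    refine ⟨min 1 (‖G p.2‖ / 2), by positivity, min_le_left _ _, fun t ht x hx => ?_⟩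
    by_contra hcon
    have h1 : (t, x) ∈ K := ⟨⟨ht, hx.trans (min_le_left _ _)⟩, hcon⟩
    have h2 : ‖G p.2‖ ≤ ‖G x‖ := hmin h1
    have h3 := hx.trans (min_le_right _ _)
    linarith

/-- The cut off function near the level set. -/
def chi (δ : ℝ) (hδ : 0 < δ) : ContDiffBump (0 : C) := ⟨δ / 2, δ, by positivity, by linarith⟩

variable {W : Type} [NormedAddCommGroup W] [NormedSpace ℝ W]

/-- The field cut off. -/
def cut (G : E → C) (δ : ℝ) (hδ : 0 < δ) (Y : ℝ × E → W) : ℝ × E → W :=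
  fun p => chi (C := C) δ hδ (G p.2) • Y p

lemma cut_eq {G : E → C} {δ : ℝ} {hδ : 0 < δ} {Y : ℝ × E → W} {t : ℝ} {x : E}
    (hx : ‖G x‖ ≤ δ / 2) : cut G δ hδ Y (t, x) = Y (t, x) := by
  have : chi (C := C) δ hδ (G x) = 1 := by
    apply ContDiffBump.one_of_mem_closedBall
    rw [mem_closedBall, dist_zero_right]
    exact hx
  simp [cut, this]

lemma cut_zero {G : E → C} {δ : ℝ} {hδ : 0 < δ} {Y : ℝ × E → W} {t : ℝ} {x : E}
    (hx : δ ≤ ‖G x‖) : cut G δ hδ Y (t, x) = 0 := by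
  have : chi (C := C) δ hδ (G x) = 0 := by
    apply ContDiffBump.zero_of_le_dist
    rw [dist_zero_right]
    exact hx
  simp [cut, this]

omit [NormedAddCommGroup E] [NormedSpace ℝ E] [FiniteDimensional ℝ E] [NormedSpace ℝ W] 
  [NormedAddCommGroup W] in
lemma periodic_int {Y : ℝ × E → W} (hper : ∀ t x, Y (t + 1, x) = Y (t, x)) (n : ℤ) (t : ℝ) (x : E) :
    Y (t + n, x) = Y (t, x) := by
  have h : Function.Periodic (fun t => Y (t, x)) 1 := fun t => hper t x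
  have := h.int_mul n t
  simpa using this

/-- smoothness of the field at all times, by periodicity -/
lemma contDiffAt_periodic {G : E → C} {Ω : Set (ℝ × E)} (hΩ : IsOpen Ω) {δ : ℝ}
    (htube : ∀ t ∈ Icc (0 : ℝ) 1, ∀ x, ‖G x‖ ≤ δ → (t, x) ∈ Ω) {Y : ℝ × E → W}
    (hY : ContDiffOn ℝ ∞ Y Ω) (hper : ∀ t x, Y (t + 1, x) = Y (t, x)) (t : ℝ) (x : E)
    (hx : ‖G x‖ ≤ δ) : ContDiffAt ℝ ∞ Y (t, x) := by
  have hmem : (Int.fract t, x) ∈ Ω :=
    htube _ ⟨Int.fract_nonneg t, (Int.fract_lt_one t).le⟩ x hx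
  have h1 : ContDiffAt ℝ ∞ Y (Int.fract t, x) := hY.contDiffAt (hΩ.mem_nhds hmem)
  have h2 : Y = Y ∘ fun p : ℝ × E => (p.1 - ⌊t⌋, p.2) := by
    funext p
    have := periodic_int hper ⌊t⌋ (p.1 - ⌊t⌋) p.2
    simpa using this
  have h3 : ContDiffAt ℝ ∞ (fun p : ℝ × E => (p.1 - (⌊t⌋ : ℝ), p.2)) (t, x) := by fun_prop
  rw [h2]
  exact ContDiffAt.comp (t, x) (g := Y) (f := fun p : ℝ × E => (p.1 - (⌊t⌋ : ℝ), p.2)) h1 h3

theorem cut_contDiff {G : E → C} (hG : ContDiff ℝ ∞ G) {Ω : Set (ℝ × E)} (hΩ : IsOpen Ω) {δ : ℝ}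
    (hδ : 0 < δ)
    (htube : ∀ t ∈ Icc (0 : ℝ) 1, ∀ x, ‖G x‖ ≤ δ → (t, x) ∈ Ω) {Y : ℝ × E → W}
    (hY : ContDiffOn ℝ ∞ Y Ω) (hper : ∀ t x, Y (t + 1, x) = Y (t, x)) :
    ContDiff ℝ ∞ (cut G δ hδ Y) := by
  rw [contDiff_iff_contDiffAt]
  rintro ⟨t, x⟩
  rcases le_or_gt ‖G x‖ δ with hx | hx
  · have h1 := contDiffAt_periodic hΩ htube hY hper t x hx
    have h2 : ContDiffAt ℝ ∞ (fun p : ℝ × E => chi (C := C) δ hδ (G p.2)) (t, x) :=
      ((chi (C := C) δ hδ).contDiff.comp (hG.comp contDiff_snd)).contDiffAt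
    exact h2.smul h1
  · have hopen : IsOpen {p : ℝ × E | δ < ‖G p.2‖} :=
      isOpen_lt continuous_const (hG.continuous.comp continuous_snd).norm
    have hev : ∀ᶠ p in 𝓝 (t, x), cut G δ hδ Y p = 0 := by
      filter_upwards [hopen.mem_nhds hx] with p hp
      exact cut_zero (t := p.1) (x := p.2) hp.le
    exact contDiffAt_const.congr_of_eventuallyEq (f := fun _ => (0 : W)) hev

theorem cut_bounded {G : E → C} (hG : ContDiff ℝ ∞ G) (hcpt : IsCompact {x | ‖G x‖ ≤ 1})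
    {Ω : Set (ℝ × E)} (hΩ : IsOpen Ω) {δ : ℝ} (hδ : 0 < δ) (hδ1 : δ ≤ 1)
    (htube : ∀ t ∈ Icc (0 : ℝ) 1, ∀ x, ‖G x‖ ≤ δ → (t, x) ∈ Ω) {Y : ℝ × E → W}
    (hY : ContDiffOn ℝ ∞ Y Ω) (hper : ∀ t x, Y (t + 1, x) = Y (t, x)) :
    ∃ c, ∀ p, ‖cut G δ hδ Y p‖ ≤ c := by
  have hcont := (cut_contDiff hG hΩ hδ htube hY hper).continuous
  obtain ⟨c, hc⟩ := (isCompact_Icc.prod hcpt).exists_bound_of_continuousOn
    (f := cut G δ hδ Y) (s := Icc (0 : ℝ) 1 ×ˢ {x | ‖G x‖ ≤ 1}) hcont.continuousOn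
  refine ⟨max c 0, ?_⟩
  rintro ⟨t, x⟩
  have hper' : cut G δ hδ Y (t, x) = cut G δ hδ Y (Int.fract t, x) := by
    have := periodic_int hper ⌊t⌋ (Int.fract t) x
    rw [Int.fract_add_floor] at this
    simp only [cut, this]
  rw [hper']
  rcases le_or_gt ‖G x‖ 1 with hx | hx
  · have hm : (Int.fract t, x) ∈ Icc (0 : ℝ) 1 ×ˢ {x | ‖G x‖ ≤ 1} :=
      ⟨⟨Int.fract_nonneg t, (Int.fract_lt_one t).le⟩, hx⟩
    exact (hc _ hm).trans (le_max_left _ _)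
  · rw [cut_zero (by linarith), norm_zero]
    exact le_max_right _ _

end Vale.Agent.P265.H185
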