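import Vale.Agent.P255.Ode

/-!
Smooth global flows of complete (in particular, bounded) smooth vector fields on finite-dimensional
spaces.
-/

open Set Filter Topology
open scoped ContDiff Manifold NNReal
open Vale.Agent.P255

noncomputable section

namespace Vale.Agent.P265.H185

section Gen

variable {F : Type} [NormedAddCommGroup F] [NormedSpace ℝ F] [FiniteDimensional ℝ F]

omit [FiniteDimensional ℝ F] in
lemma fg_hasMFDeriv {γ : ℝ → F} {w : F} {t : ℝ} :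
    HasMFDerivAt 𝓘(ℝ, ℝ) 𝓘(ℝ, F) γ t ((1 : ℝ →L[ℝ] ℝ).smulRight w) ↔ HasDerivAt γ w t := by
  have h1 : HasMFDerivAt 𝓘(ℝ, ℝ) 𝓘(ℝ, F) γ t ((1 : ℝ →L[ℝ] ℝ).smulRight w) ↔
      HasFDerivAt γ ((1 : ℝ →L[ℝ] ℝ).smulRight w : ℝ →L[ℝ] F) t := hasMFDerivAt_iff_hasFDerivAt
  have h2 : ((1 : ℝ →L[ℝ] ℝ).smulRight w : ℝ →L[ℝ] F)
      = ContinuousLinearMap.toSpanSingleton ℝ w := by
    ext
    simp
  refine h1.trans ?_
  rw [hasDerivAt_iff_hasFDerivAt, h2]

omit [FiniteDimensional ℝ F] in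
lemma fg_curveOn {γ : ℝ → F} {g : F → F} {s : Set ℝ} (hs : IsOpen s) :
    IsMIntegralCurveOn (I := 𝓘(ℝ, F)) γ (fun x => (g x : TangentSpace 𝓘(ℝ, F) x)) s ↔
      ∀ t ∈ s, HasDerivAt γ (g (γ t)) t := by
  unfold IsMIntegralCurveOn
  constructor
  · intro h t ht
    exact fg_hasMFDeriv.1 ((h t ht).hasMFDerivAt (hs.mem_nhds ht))
  · intro h t ht
    exact (fg_hasMFDeriv.2 (h t ht)).hasMFDerivWithinAt

omit [FiniteDimensional ℝ F] in
lemma fg_curve {γ : ℝ → F} {g : F → F} :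
    IsMIntegralCurve (I := 𝓘(ℝ, F)) γ (fun x => (g x : TangentSpace 𝓘(ℝ, F) x)) ↔
      ∀ t, HasDerivAt γ (g (γ t)) t := by
  unfold IsMIntegralCurve
  exact forall_congr' fun t => fg_hasMFDeriv

omit [FiniteDimensional ℝ F] in
lemma fg_section {g : F → F} (hg : ContDiff ℝ 1 g) :
    ContMDiff 𝓘(ℝ, F) 𝓘(ℝ, F).tangent 1
      (fun x => (⟨x, (g x : TangentSpace 𝓘(ℝ, F) x)⟩ : TangentBundle 𝓘(ℝ, F) F)) :=
  contMDiff_vectorSpace_iff_contDiff.2 hg

/-- Uniqueness of integral curves on intervals. -/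
lemma fg_unique {g : F → F} (hg : ContDiff ℝ 1 g) {γ γ' : ℝ → F} {a b t₀ : ℝ}
    (ht₀ : t₀ ∈ Ioo a b) (h : ∀ t ∈ Ioo a b, HasDerivAt γ (g (γ t)) t)
    (h' : ∀ t ∈ Ioo a b, HasDerivAt γ' (g (γ' t)) t) (h0 : γ t₀ = γ' t₀) :
    EqOn γ γ' (Ioo a b) := by
  have : CompleteSpace F := FiniteDimensional.complete ℝ F
  exact isMIntegralCurveOn_Ioo_eqOn_of_contMDiff_boundaryless (I := 𝓘(ℝ, F)) ht₀ (fg_section hg)
    ((fg_curveOn isOpen_Ioo).2 h) ((fg_curveOn isOpen_Ioo).2 h') h0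

/-- A complete smooth vector field has a smooth global flow. -/
theorem fg_global_flow {g : F → F} (hg : ContDiff ℝ ∞ g)
    (hglob : ∀ p : F, ∃ γ : ℝ → F, γ 0 = p ∧ ∀ t, HasDerivAt γ (g (γ t)) t) :
    ∃ Ψ : ℝ × F → F, ContDiff ℝ ∞ Ψ ∧ (∀ p, Ψ (0, p) = p) ∧
      ∀ t p, HasDerivAt (fun r => Ψ (r, p)) (g (Ψ (t, p))) t := by
  have hcomp : CompleteSpace F := FiniteDimensional.complete ℝ F
  have hg1 : ContDiff ℝ 1 g := hg.of_le (by simp)
  choose γ hγ0 hγ using hglob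
  -- the group property
  have hgroup : ∀ (σ τ : ℝ) (p : F), γ p (τ + σ) = γ (γ p σ) τ := by
    intro σ τ p
    have h1 : ∀ t, HasDerivAt (fun r => γ p (r + σ)) (g (γ p (t + σ))) t := by
      intro t
      exact (hγ p (t + σ)).comp_add_const t σ
    have h2 : (fun r => γ p (r + σ)) 0 = γ (γ p σ) 0 := by
      simp only [zero_add, hγ0]
    have h3 := fg_unique (a := -(|τ| + 1)) (b := |τ| + 1) (t₀ := 0) hg1
      (by constructor <;> linarith [abs_nonneg τ]) (fun t _ => h1 t)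
      (fun t _ => hγ (γ p σ) t) h2
    exact h3 (by constructor <;> linarith [abs_nonneg τ, le_abs_self τ, neg_abs_le τ])
  -- local smoothness
  have hloc : ∀ y : F, ∃ ε > 0, ∃ W : Set F, IsOpen W ∧ y ∈ W ∧
      ContDiffOn ℝ ∞ (fun p : ℝ × F => γ p.2 p.1) (Ioo (-ε) ε ×ˢ W) := by
    intro y
    obtain ⟨ε, hε, W, hW, hy, Φ, h0, h1, h2⟩ :=
      Vale.Agent.P255.exists_flow_smooth g univ isOpen_univ hg.contDiffOn y (mem_univ y)
    refine ⟨ε, hε, W, hW, hy, h2.congr ?_⟩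
    rintro ⟨t, x⟩ ⟨ht, hx⟩
    have h3 := fg_unique (t₀ := 0) hg1 (by constructor <;> linarith) (fun t _ => hγ x t)
      (fun t ht => (h1 x hx t ht).2) (by rw [hγ0, h0 x hx])
    exact h3 ht
  -- smoothness in the initial point for fixed time
  have hB : ∀ (p : F) (τ : ℝ), ContDiffAt ℝ ∞ (fun x => γ x τ) p := by
    intro p
    set B : Set ℝ := {τ | ContDiffAt ℝ ∞ (fun x => γ x τ) p} with hBdef
    have key : ∀ τ₀ : ℝ, ∃ ε > 0, ∀ σ ∈ Ioo (τ₀ - ε) (τ₀ + ε), σ ∈ B →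
        ∀ τ ∈ Ioo (τ₀ - ε) (τ₀ + ε), τ ∈ B := by
      intro τ₀
      obtain ⟨ε, hε, W, hW, hy, hcd⟩ := hloc (γ p τ₀)
      have hcont : ContinuousAt (γ p) τ₀ := (hγ p τ₀).continuousAt
      obtain ⟨δ, hδ, hδW⟩ := Metric.eventually_nhds_iff.1 (hcont.eventually (hW.mem_nhds hy))
      refine ⟨min (ε / 2) δ, lt_min (by linarith) hδ, ?_⟩
      intro σ hσ hσB τ hτ
      have hm1 := min_le_left (ε / 2) δ
      have hm2 := min_le_right (ε / 2) δ
      have hσW : γ p σ ∈ W := by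
        apply hδW
        rw [Real.dist_eq, abs_lt]
        constructor <;> linarith [hσ.1, hσ.2]
      have hd : τ - σ ∈ Ioo (-ε) ε := by
        constructor <;> linarith [hσ.1, hσ.2, hτ.1, hτ.2]
      have h1 : ContDiffAt ℝ ∞ (fun q : ℝ × F => γ q.2 q.1) (τ - σ, γ p σ) :=
        hcd.contDiffAt ((isOpen_Ioo.prod hW).mem_nhds ⟨hd, hσW⟩)
      have h2 : ContDiffAt ℝ ∞ (fun x : F => ((τ - σ, γ x σ) : ℝ × F)) p :=
        contDiffAt_const.prodMk hσB
      have h3 := ContDiffAt.comp p (f := fun x : F => ((τ - σ, γ x σ) : ℝ × F)) h1 h2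
      have h4 : ((fun q : ℝ × F => γ q.2 q.1) ∘ fun x : F => ((τ - σ, γ x σ) : ℝ × F))
          = fun x => γ x τ := by
        funext x
        simp only [Function.comp]
        rw [← hgroup]
        congr 1
        ring
      rw [h4] at h3
      exact h3
    have hopen : IsOpen B := by
      rw [isOpen_iff_mem_nhds]
      intro τ₀ hτ₀
      obtain ⟨ε, hε, h⟩ := key τ₀
      have hmem : τ₀ ∈ Ioo (τ₀ - ε) (τ₀ + ε) := by constructor <;> linarith
      exact mem_of_superset (Ioo_mem_nhds hmem.1 hmem.2) (h τ₀ hmem hτ₀)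
    have hclosed : IsClosed B := by
      rw [← isOpen_compl_iff, isOpen_iff_mem_nhds]
      intro τ₀ hτ₀
      obtain ⟨ε, hε, h⟩ := key τ₀
      have hmem : τ₀ ∈ Ioo (τ₀ - ε) (τ₀ + ε) := by constructor <;> linarith
      refine mem_of_superset (Ioo_mem_nhds hmem.1 hmem.2) ?_
      intro σ hσ hσB
      exact hτ₀ (h σ hσ hσB τ₀ hmem)
    have hne : B.Nonempty := by
      refine ⟨0, ?_⟩
      have : (fun x => γ x 0) = id := by
        funext x
        rw [hγ0]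
        rfl
      simp only [hBdef, mem_ofPred_eq]
      rw [this]
      exact contDiffAt_id
    have huniv := IsClopen.eq_univ ⟨hclosed, hopen⟩ hne
    intro τ
    have : τ ∈ B := by rw [huniv]; trivial
    exact this
  refine ⟨fun q => γ q.2 q.1, ?_, fun p => hγ0 p, fun t p => hγ p t⟩
  rw [contDiff_iff_contDiffAt]
  rintro ⟨τ₀, p⟩
  obtain ⟨ε, hε, W, hW, hy, hcd⟩ := hloc (γ p τ₀)
  have h1 : ContDiffAt ℝ ∞ (fun q : ℝ × F => γ q.2 q.1) (0, γ p τ₀) :=
    hcd.contDiffAt ((isOpen_Ioo.prod hW).mem_nhds ⟨by constructor <;> linarith, hy⟩)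
  have h2 : ContDiffAt ℝ ∞ (fun q : ℝ × F => ((q.1 - τ₀, γ q.2 τ₀) : ℝ × F)) (τ₀, p) := by
    refine ContDiffAt.prodMk (contDiffAt_fst.sub contDiffAt_const) ?_
    exact ContDiffAt.comp (τ₀, p) (g := fun x => γ x τ₀) (hB p τ₀) contDiffAt_snd
  have h1' : ContDiffAt ℝ ∞ (fun q : ℝ × F => γ q.2 q.1)
      ((fun q : ℝ × F => ((q.1 - τ₀, γ q.2 τ₀) : ℝ × F)) (τ₀, p)) := by
    simpa using h1
  have h3 := ContDiffAt.comp (τ₀, p) h1' h2
  have h4 : ((fun q : ℝ × F => γ q.2 q.1) ∘ fun q : ℝ × F => ((q.1 - τ₀, γ q.2 τ₀) : ℝ × F))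
      = fun q : ℝ × F => γ q.2 q.1 := by
    funext q
    simp only [Function.comp]
    rw [← hgroup]
    congr 1
    ring
  rw [h4] at h3
  exact h3

end Gen

variable {V : Type} [NormedAddCommGroup V] [NormedSpace ℝ V] [FiniteDimensional ℝ V]

/-- A complete smooth vector field has a smooth global flow. -/
theorem exists_global_flow (f : V → V) (hf : ContDiff ℝ ∞ f)
    (hc : ∀ z, ∃ c : ℝ → V, c 0 = z ∧ ∀ t, HasDerivAt c (f (c t)) t) :
    ∃ Φ : ℝ → V → V, ContDiff ℝ ∞ (fun q : ℝ × V => Φ q.1 q.2) ∧ (∀ z, Φ 0 z = z) ∧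
      (∀ t z, HasDerivAt (fun s => Φ s z) (f (Φ t z)) t) ∧
      ∀ c : ℝ → V, (∀ t, HasDerivAt c (f (c t)) t) → ∀ t, c t = Φ t (c 0) := by
  obtain ⟨Ψ, h1, h2, h3⟩ := fg_global_flow hf hc
  refine ⟨fun t z => Ψ (t, z), h1, h2, h3, ?_⟩
  intro c hcd t
  have h4 := fg_unique (a := -(|t| + 1)) (b := |t| + 1) (t₀ := 0) (hf.of_le (by simp))
    (by constructor <;> linarith [abs_nonneg t]) (fun r _ => hcd r) (fun r _ => h3 r (c 0))
    (h2 (c 0)).symm
  exact h4 (by constructor <;> linarith [abs_nonneg t, le_abs_self t, neg_abs_le t])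


/-- A bounded `C¹` vector field on a finite-dimensional space is complete. -/
theorem exists_curve_of_bounded {g : V → V} (hg : ContDiff ℝ 1 g) {C : ℝ} (hC : ∀ x, ‖g x‖ ≤ C)
    (p : V) : ∃ γ : ℝ → V, γ 0 = p ∧ ∀ t, HasDerivAt γ (g (γ t)) t := by
  have : CompleteSpace V := FiniteDimensional.complete ℝ V
  have key := (exists_isMIntegralCurve_iff_exists_isMIntegralCurveOn_Ioo (I := 𝓘(ℝ, V))
    (v := fun x => (g x : TangentSpace 𝓘(ℝ, V) x)) (fg_section hg) p).2 ?_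
  · obtain ⟨γ, h0, h1⟩ := key
    exact ⟨γ, h0, fg_curve.1 h1⟩
  intro a
  set T : ℝ := |a| + 1 with hT
  have hT0 : 0 < T := by positivity
  have hC0 : 0 ≤ C := (norm_nonneg (g p)).trans (hC p)
  set L : ℝ≥0 := ⟨C, hC0⟩ with hL
  set R : ℝ≥0 := ⟨C * T, by positivity⟩ with hR
  have hcomp : IsCompact (Metric.closedBall p (R : ℝ)) := isCompact_closedBall p _
  obtain ⟨K, hK⟩ := (hg.locallyLipschitz.locallyLipschitzOn (s := Metric.closedBall p (R : ℝ))).exists_lipschitzOnWith_of_compact hcomp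
  have hPL : IsPicardLindelof (fun _ => g) (tmin := -T) (tmax := T) ⟨0, by constructor <;> linarith⟩ p R 0 L K := by
    apply IsPicardLindelof.of_time_independent
    · intro x _
      exact hC x
    · exact hK
    · simp only [sub_zero, zero_sub, neg_neg, max_self, NNReal.coe_zero]
      exact le_rfl
  obtain ⟨γ, h0, h1⟩ := hPL.exists_eq_forall_mem_Icc_hasDerivWithinAt₀
  refine ⟨γ, h0, ?_⟩
  rw [fg_curveOn isOpen_Ioo]
  intro t ht
  have haT : |a| < T := by linarith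
  have hat := abs_lt.1 haT
  have h2 : t ∈ Ioo (-T) T := by
    constructor
    · have := ht.1; have := le_abs_self a; linarith
    · have := ht.2; have := le_abs_self a; linarith
  exact (h1 t (Ioo_subset_Icc_self h2)).hasDerivAt (Icc_mem_nhds h2.1 h2.2)

end Vale.Agent.P265.H185
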