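import Vale.Agent.P265.H185.Bridge

/-! The upper bound: a nondegenerate Hamiltonian flow on `M` with at most `16` fixed points. -/

open Module Set
open scoped Quaternion ContDiff Topology

noncomputable section

namespace Vale.Agent.P265.Dis

open Vale.Agent.P265.Loc H185

lemma Pw_eq (w : A) : Pw w = Pq w := by
  unfold Pw P0 Pq
  ext <;> simp

lemma DPw_eq (w b : A) : DPw w b = DPq w b := by
  unfold DPw P0 DPq
  ext <;> simp

lemma hC_eq_th (x : E) (b : A) : hC x b = th x.1 x.2 b := by
  unfold hC th
  rw [Pw_eq, DPw_eq]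

/-- There are a symplectic form on `M` and a Hamiltonian flow whose time-one map has only
nondegenerate fixed points, at most `16` of them with contractible loops. -/
theorem upper : ∃ (om : FormField V M) (H : ℝ → M → ℝ) (φ : ℝ → M → M), IsSymplectic om ∧
      IsHamiltonianFlow om H φ ∧ NondegFixedPoints V (φ 1) ∧ (Fix0 φ).encard ≤ 16 := by
  have hz : ∀ x : E, G x = 0 → af Qp JL (-g0) 1 x = 0 → Sf Qp (-g0) 1 x = x.2 → x ∈ zset := by
    intro x hx ha hS
    refine ⟨hx, ?_, ?_⟩
    · have h := bridge_comm hx hS
      rw [Pw_eq] at h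
      rw [cm, h, sub_self]
    · intro ξ hξ
      rw [← hC_eq_th]
      exact bridge_hC hx ha (tanW_of hξ)
  refine upper_of ?_ ?_
  · intro x hx ha hS ξ hξ hda hdS
    refine zset_nondeg' (hz x hx ha hS) hξ ?_ ?_
    · have h := bridge_comm_deriv hx hS hdS
      have h2 : (fun y : E => cm y.1 y.2) =
          fun x : E => Pw x.1 * star g0 * x.2 - x.2 * (Pw x.1 * star g0) := by
        funext y
        rw [cm, Pw_eq]
      rw [h2]
      exact h
    · intro b hb hbt
      have h := bridge_hC_deriv hx ha hda (b := b) (hb.differentiable (by simp) x.1)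
        (fun w => tanW_of (hbt w 0))
      have h2 : (fun y : E => th y.1 y.2 (b y.1)) = fun x : E => hC x (b x.1) := by
        funext y
        rw [hC_eq_th]
      rw [h2]
      exact h
  · exact (encard_le_encard fun x hx => hz x hx.1 hx.2.1 hx.2.2).trans encard_zset

end Vale.Agent.P265.Dis
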