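import Vale.Agent.P265.H185.QMain
import Vale.Agent.P265.Dis.Model
import Vale.Agent.P265.H970.Basics
import Vale.Agent.P265.H117.CritSmooth

/-! The path of quaternion valued maps of Model P and the conjugation invariance of `G`. -/

open Module Set
open scoped Quaternion ContDiff

noncomputable section

namespace Vale.Agent.P265.Dis

/-- The embedding of `ℂ` in the quaternions, as a continuous linear map. -/
def cL : ℂ →L[ℝ] ℍ[ℝ] := LinearMap.toContinuousLinearMap Quaternion.ofComplex.toLinearMap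

lemma cL_apply (z : ℂ) : cL z = ⟨z.re, z.im, 0, 0⟩ := rfl

@[simp] lemma cL_re (z : ℂ) : (cL z).re = z.re := rfl
@[simp] lemma cL_imI (z : ℂ) : (cL z).imI = z.im := rfl
@[simp] lemma cL_imJ (z : ℂ) : (cL z).imJ = 0 := rfl
@[simp] lemma cL_imK (z : ℂ) : (cL z).imK = 0 := rfl

/-- The quaternion `j`. -/
def jq : ℍ[ℝ] := ⟨0, 0, 1, 0⟩

@[simp] lemma jq_re : jq.re = 0 := rfl
@[simp] lemma jq_imI : jq.imI = 0 := rfl
@[simp] lemma jq_imJ : jq.imJ = 1 := rfl
@[simp] lemma jq_imK : jq.imK = 0 := rfl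

/-- `P0 = z1 + z2 j`. -/
def P0 (w : A) : ℍ[ℝ] := cL w.2.1 + cL w.2.2.1 * jq

/-- `K0 = -1 + j`. -/
def K0 : ℍ[ℝ] := -1 + jq

lemma g0_eq : g0 = 1 + jq := by
  ext <;> simp

/-- The path `Q_b = ((1 - b) j + b c) ((1 - b) K0 + b P0)`. -/
def Qp (p : ℝ × A) : ℍ[ℝ] :=
  ((1 - p.1) • jq + p.1 • cL p.2.1) * ((1 - p.1) • K0 + p.1 • P0 p.2)

lemma contDiff_P0 : ContDiff ℝ ∞ P0 := by
  unfold P0
  fun_prop

lemma contDiff_Qp : ContDiff ℝ ∞ Qp := by
  have h1 : ContDiff ℝ ∞ fun p : ℝ × A => P0 p.2 := contDiff_P0.comp contDiff_snd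
  unfold Qp
  fun_prop

lemma Qp_zero (w : A) : Qp (0, w) = -g0 := by
  simp only [Qp, sub_zero, one_smul, zero_smul, add_zero, K0, g0_eq]
  ext <;> simp

lemma Qp_one (w : A) : Qp (1, w) = cL w.1 * P0 w := by
  simp only [Qp, sub_self, zero_smul, one_smul, zero_add]

lemma g0_ne : g0 ≠ 0 := by
  intro h
  have := congrArg (fun q : ℍ[ℝ] => q.re) h
  simp at this

lemma Qp_ne {b : ℝ} (hb : b ∈ Icc (0 : ℝ) 1) {x : E} (hx : G x = 0) : Qp (b, x.1) ≠ 0 := by
  obtain ⟨hc, hf, hD, -, -⟩ := (mem_iff x).1 hx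
  unfold Qp
  apply mul_ne_zero
  · intro h
    have h1 := congrArg (fun q : ℍ[ℝ] => q.imJ) h
    have h2 := congrArg (fun q : ℍ[ℝ] => q.re) h
    have h3 := congrArg (fun q : ℍ[ℝ] => q.imI) h
    simp at h1 h2 h3
    have hb1 : b = 1 := by linarith
    have h4 : x.1.1 = 0 := by
      apply Complex.ext
      · simpa [hb1] using h2
      · simpa [hb1] using h3
    rw [h4, norm_zero] at hc
    norm_num at hc
  · intro h
    have h1 := congrArg (fun q : ℍ[ℝ] => q.re) h
    have h2 := congrArg (fun q : ℍ[ℝ] => q.imI) h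
    have h3 := congrArg (fun q : ℍ[ℝ] => q.imJ) h
    have h4 := congrArg (fun q : ℍ[ℝ] => q.imK) h
    simp [K0, P0] at h1 h2 h3 h4
    have hb0 : 0 < b := by
      rcases eq_or_lt_of_le hb.1 with h0 | h0
      · rw [← h0] at h1; norm_num at h1
      · exact h0
    set l : ℝ := (1 - b) / b with hl
    have hl0 : 0 ≤ l := div_nonneg (by linarith [hb.2]) hb.1
    have hz1 : x.1.2.1 = (l : ℂ) := by
      apply Complex.ext
      · rw [Complex.ofReal_re, hl, eq_div_iff hb0.ne']; linarith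
      · rw [Complex.ofReal_im]
        rcases h2 with h2 | h2
        · exact absurd h2 hb0.ne'
        · exact h2
    have hz2 : x.1.2.2.1 = (-l : ℂ) := by
      apply Complex.ext
      · rw [Complex.neg_re, Complex.ofReal_re, hl, neg_div', eq_div_iff hb0.ne']; linarith
      · rw [Complex.neg_im, Complex.ofReal_im, neg_zero]
        rcases h4 with h4 | h4
        · exact absurd h4 hb0.ne'
        · exact h4
    have hf' : fW x.1 = ((l ^ 2 - l ^ 3 : ℝ) : ℂ) := by
      simp only [fW, hz1, hz2]; push_cast; ring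
    have hD' : dW x.1 = ((l ^ 2 + l ^ 3 : ℝ) : ℂ) := by
      simp only [dW, hz1, hz2]; push_cast; ring
    rw [hf', Complex.norm_real, Real.norm_eq_abs] at hf
    rw [hD', Complex.norm_real, Real.norm_eq_abs, sq_abs] at hD
    have hD2 : l ^ 2 + l ^ 3 ≤ 2 := by
      have h5 : 0 ≤ l ^ 2 + l ^ 3 := by positivity
      nlinarith [sq_nonneg x.1.2.2.2]
    have hl1 : l ≤ 1 := by
      by_contra hcon
      push Not at hcon
      have h6 : 1 < l ^ 2 := by nlinarith
      have h7 : 1 < l ^ 3 := by nlinarith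
      linarith
    have h8 : 0 ≤ l ^ 2 - l ^ 3 := by
      have : l ^ 2 - l ^ 3 = l ^ 2 * (1 - l) := by ring
      rw [this]
      have : 0 ≤ 1 - l := by linarith
      positivity
    rw [abs_of_nonneg h8] at hf
    have h9 : l ^ 2 ≤ 1 := by nlinarith
    have h10 : 0 ≤ l ^ 3 := by positivity
    have h11 : l ^ 3 = 0 := by linarith
    have h12 : l = 0 := by
      by_contra hcon
      exact hcon (pow_eq_zero_iff (by norm_num) |>.1 h11)
    rw [h12] at hf
    norm_num at hf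

/-- infinitesimal conjugation invariance of `G` -/
lemma fderiv_G_comm (x : E) (p : ℍ[ℝ]) : fderiv ℝ G x (0, p * x.2 - x.2 * p) = 0 := by
  rw [fderiv_G]
  have h1 : inner ℝ x.2 (p * x.2 - x.2 * p) = 0 := by
    rw [Quaternion.inner_def]
    simp only [Quaternion.re_mul, Quaternion.imI_mul, Quaternion.imJ_mul, Quaternion.imK_mul,
      Quaternion.re_star, Quaternion.imI_star, Quaternion.imJ_star, Quaternion.imK_star,
      Quaternion.re_sub, Quaternion.imI_sub, Quaternion.imJ_sub, Quaternion.imK_sub]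
    ring
  have h2 : (p * x.2 - x.2 * p).re = 0 := by
    rw [Quaternion.re_sub, H185.re_mul_comm', sub_self]
  simp only [h1, h2, Prod.fst_zero, Prod.snd_zero, inner_zero_right, dfW, ddW, mul_zero, add_zero,
    sub_zero]
  rfl

/-- conjugation invariance of `G` -/
lemma G_conj (w : A) (v q : ℍ[ℝ]) (hq : q ≠ 0) : G (w, q * v * q⁻¹) = G (w, v) := by
  have h1 : ‖q * v * q⁻¹‖ = ‖v‖ := by
    rw [norm_mul, norm_mul, norm_inv]
    have : ‖q‖ ≠ 0 := norm_ne_zero_iff.2 hq
    field_simp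
  have h2 : (q * v * q⁻¹).re = v.re := by
    rw [H185.re_mul_comm', ← mul_assoc, inv_mul_cancel₀ hq, one_mul]
  simp only [G, h1, h2]

lemma sphere_of {x : E} (hx : G x = 0) : x.2.re = 0 ∧ Quaternion.normSq x.2 = 1 := by
  obtain ⟨-, -, -, hv, hre⟩ := (mem_iff x).1 hx
  refine ⟨hre, ?_⟩
  rw [Quaternion.normSq_eq_norm_mul_self, hv, one_mul]

lemma sphere_tangent {x : E} (η : E) (h : fderiv ℝ G x η = 0) :
    η.2.re = 0 ∧ inner ℝ x.2 η.2 = 0 := by
  rw [fderiv_G] at h
  simp only [Prod.mk_eq_zero] at h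
  obtain ⟨-, -, -, h4, h5⟩ := h
  exact ⟨h5, by linarith⟩

end Vale.Agent.P265.Dis
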