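import Mathlib

/-! Quaternion identities used in the computation of the flow. -/

open Set Filter Topology
open scoped ContDiff Quaternion

namespace Vale.Agent.P265.H185

set_option linter.unusedSimpArgs false

lemma re_mul_comm' (a b : ℍ[ℝ]) : (a * b).re = (b * a).re := by
  simp only [Quaternion.re_mul]
  ring

/-- conjugation is adjoint to inverse conjugation -/
lemma inner_conj (q x v : ℍ[ℝ]) :
    inner ℝ (q⁻¹ * x * q) v = inner ℝ x (q * v * q⁻¹) := by
  have hinv : q⁻¹ = (Quaternion.normSq q)⁻¹ • star q := rfl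
  have h1 : q⁻¹ * x * q * star v = (Quaternion.normSq q)⁻¹ • (star q * (x * q * star v)) := by
    rw [hinv]
    simp only [smul_mul_assoc, mul_assoc]
  have h2 : x * star (q * v * q⁻¹) = (Quaternion.normSq q)⁻¹ • ((x * q * star v) * star q) := by
    rw [hinv]
    simp only [star_mul, Quaternion.star_smul, star_star, smul_mul_assoc, mul_smul_comm,
      mul_assoc]
  rw [Quaternion.inner_def, Quaternion.inner_def, h1, h2, Quaternion.re_smul, Quaternion.re_smul,
    re_mul_comm']

/-- the area form of the sphere of imaginary unit quaternions, evaluated on the velocity -/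
lemma sigma_velocity (p v ξ : ℍ[ℝ]) (hv : v.re = 0) (hv1 : Quaternion.normSq v = 1)
    (hξ : ξ.re = 0) (hvξ : inner ℝ v ξ = 0) :
    (1 / 2 : ℝ) * inner ℝ v ((p * v - v * p) * ξ - ξ * (p * v - v * p)) =
      2 * inner ℝ p ξ := by
  rw [Quaternion.inner_def] at hvξ
  rw [Quaternion.normSq_def'] at hv1
  rw [Quaternion.inner_def, Quaternion.inner_def]
  simp only [Quaternion.re_mul, Quaternion.imI_mul, Quaternion.imJ_mul, Quaternion.imK_mul,
      Quaternion.re_star, Quaternion.imI_star, Quaternion.imJ_star, Quaternion.imK_star,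
      Quaternion.re_sub, Quaternion.imI_sub, Quaternion.imJ_sub, Quaternion.imK_sub,
      hv, hξ, zero_mul, mul_zero, zero_sub, sub_zero, add_zero, zero_add, neg_mul, mul_neg,
      neg_neg, ne_eq, OfNat.ofNat_ne_zero, not_false_eq_true, zero_pow] at *
  linear_combination (2 * (p.imI * ξ.imI + p.imJ * ξ.imJ + p.imK * ξ.imK)) * hv1 -
    2 * (p.imI * v.imI + p.imJ * v.imJ + p.imK * v.imK) * hvξ

end Vale.Agent.P265.H185
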