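import Vale.Agent.P265.H185.QAlg

/-! Calculus of a nonvanishing path of quaternion valued maps. -/

open Set Filter Topology
open scoped ContDiff Quaternion

noncomputable section

namespace Vale.Agent.P265.H185

variable {A : Type} [NormedAddCommGroup A] [NormedSpace ℝ A]

/-- `(∂_b Q) Q⁻¹` -/
def pQ (Q : ℝ × A → ℍ[ℝ]) (z : ℝ × A) : ℍ[ℝ] := fderiv ℝ Q z (1, 0) * (Q z)⁻¹

/-- The form `ξ ↦ 2 ⟨v, D_w p(ξ)⟩`. -/
def lamQ (Q : ℝ × A → ℍ[ℝ]) (z : ℝ × A) (v : ℍ[ℝ]) : A →L[ℝ] ℝ :=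
  (2 : ℝ) • ((innerSL ℝ v).comp ((fderiv ℝ (pQ Q) z).comp (ContinuousLinearMap.inr ℝ ℝ A)))

/-- The form `ξ ↦ 2 ⟨u, Q⁻¹ D_w Q(ξ)⟩`. -/
def thQ (Q : ℝ × A → ℍ[ℝ]) (z : ℝ × A) (u : ℍ[ℝ]) : A →L[ℝ] ℝ :=
  (2 : ℝ) • ((innerSL ℝ u).comp ((ContinuousLinearMap.mul ℝ ℍ[ℝ] (Q z)⁻¹).comp
    ((fderiv ℝ Q z).comp (ContinuousLinearMap.inr ℝ ℝ A))))

lemma lamQ_apply (Q : ℝ × A → ℍ[ℝ]) (z : ℝ × A) (v : ℍ[ℝ]) (ξ : A) :
    lamQ Q z v ξ = 2 * inner ℝ v (fderiv ℝ (pQ Q) z (0, ξ)) := by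
  simp [lamQ]

lemma thQ_apply (Q : ℝ × A → ℍ[ℝ]) (z : ℝ × A) (u : ℍ[ℝ]) (ξ : A) :
    thQ Q z u ξ = 2 * inner ℝ u ((Q z)⁻¹ * fderiv ℝ Q z (0, ξ)) := by
  simp [thQ]

variable {Q : ℝ × A → ℍ[ℝ]}

lemma contDiffAt_invQ (hQ : ContDiff ℝ ∞ Q) {z : ℝ × A} (hz : Q z ≠ 0) :
    ContDiffAt ℝ ∞ (fun z => (Q z)⁻¹) z := by
  have h1 : ContDiffAt ℝ ∞ (Ring.inverse : ℍ[ℝ] → ℍ[ℝ]) (Q z) :=
    contDiffAt_ringInverse ℝ (Units.mk0 (Q z) hz)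
  have h2 := h1.comp z hQ.contDiffAt
  have h3 : (Ring.inverse : ℍ[ℝ] → ℍ[ℝ]) ∘ Q = fun z => (Q z)⁻¹ := by
    funext y
    simp
  rwa [h3] at h2

lemma contDiff_dQ (hQ : ContDiff ℝ ∞ Q) (ξ : ℝ × A) : ContDiff ℝ ∞ (fun z => fderiv ℝ Q z ξ) :=
  (hQ.fderiv_right (m := ∞) (by simp)).clm_apply contDiff_const

lemma contDiffAt_pQ (hQ : ContDiff ℝ ∞ Q) {z : ℝ × A} (hz : Q z ≠ 0) :
    ContDiffAt ℝ ∞ (pQ Q) z :=
  (contDiff_dQ hQ (1, 0)).contDiffAt.mul (contDiffAt_invQ hQ hz)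

lemma hasFDerivAt_invQ (hQ : ContDiff ℝ ∞ Q) {z : ℝ × A} (hz : Q z ≠ 0) (ξ : ℝ × A) :
    fderiv ℝ (fun z => (Q z)⁻¹) z ξ = -((Q z)⁻¹ * fderiv ℝ Q z ξ * (Q z)⁻¹) := by
  have h1 := (hasStrictFDerivAt_inv' (𝕜 := ℝ) hz).hasFDerivAt
  have h2 := (hQ.differentiable (by simp) z).hasFDerivAt
  have h3 := (h1.comp z h2).fderiv
  have h4 : (Inv.inv ∘ Q) = fun z => (Q z)⁻¹ := rfl
  rw [h4] at h3
  rw [h3]
  simp

lemma fderiv_pQ (hQ : ContDiff ℝ ∞ Q) {z : ℝ × A} (hz : Q z ≠ 0) (ξ : ℝ × A) :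
    fderiv ℝ (pQ Q) z ξ = fderiv ℝ (fderiv ℝ Q) z ξ (1, 0) * (Q z)⁻¹ -
      fderiv ℝ Q z (1, 0) * ((Q z)⁻¹ * fderiv ℝ Q z ξ * (Q z)⁻¹) := by
  have h1 : DifferentiableAt ℝ (fun z => fderiv ℝ Q z (1, 0)) z :=
    (contDiff_dQ hQ (1, 0)).differentiable (by simp) z
  have h2 : DifferentiableAt ℝ (fun z => (Q z)⁻¹) z :=
    (contDiffAt_invQ hQ hz).differentiableAt (by simp)
  have h3 : fderiv ℝ (pQ Q) z = _ := fderiv_mul' h1 h2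
  have h4 : fderiv ℝ (fun z => fderiv ℝ Q z (1, 0)) z ξ = fderiv ℝ (fderiv ℝ Q) z ξ (1, 0) := by
    have h5 : HasFDerivAt (fderiv ℝ Q) (fderiv ℝ (fderiv ℝ Q) z) z :=
      ((hQ.fderiv_right (m := ∞) (by simp)).differentiable (by simp) z).hasFDerivAt
    have h6 := h5.clm_apply (hasFDerivAt_const ((1 : ℝ), (0 : A)) z)
    rw [h6.fderiv]
    simp
  rw [h3]
  simp only [_root_.add_apply, _root_.smul_apply, hasFDerivAt_invQ hQ hz, h4, smul_eq_mul,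
    MulOpposite.smul_eq_mul_unop, MulOpposite.unop_op, mul_neg]
  abel

/-- symmetry of the second derivative -/
lemma snd_symm (hQ : ContDiff ℝ ∞ Q) (z ξ η : ℝ × A) :
    fderiv ℝ (fderiv ℝ Q) z ξ η = fderiv ℝ (fderiv ℝ Q) z η ξ :=
  (hQ.contDiffAt (x := z)).isSymmSndFDerivAt (by
    rw [minSmoothness_of_isRCLikeNormedField]
    exact WithTop.coe_le_coe.2 (le_top : (2 : ℕ∞) ≤ ⊤)) ξ η

lemma hasDerivAt_line (b : ℝ) (w : A) : HasDerivAt (fun b : ℝ => (b, w)) ((1 : ℝ), (0 : A)) b :=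
  (hasDerivAt_id b).prodMk (hasDerivAt_const b w)

lemma hasDerivAt_Q (hQ : ContDiff ℝ ∞ Q) (b : ℝ) (w : A) :
    HasDerivAt (fun b => Q (b, w)) (fderiv ℝ Q (b, w) (1, 0)) b :=
  (hQ.differentiable (by simp) (b, w)).hasFDerivAt.comp_hasDerivAt b (hasDerivAt_line b w)

lemma hasDerivAt_invQ (hQ : ContDiff ℝ ∞ Q) {b : ℝ} {w : A} (hz : Q (b, w) ≠ 0) :
    HasDerivAt (fun b => (Q (b, w))⁻¹)
      (-((Q (b, w))⁻¹ * fderiv ℝ Q (b, w) (1, 0) * (Q (b, w))⁻¹)) b := by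
  have h1 := ((contDiffAt_invQ hQ hz).differentiableAt (by simp)).hasFDerivAt.comp_hasDerivAt b
    (hasDerivAt_line b w)
  rw [hasFDerivAt_invQ hQ hz] at h1
  exact h1

/-- the derivative of `b ↦ Q u Q⁻¹` -/
lemma hasDerivAt_conj (hQ : ContDiff ℝ ∞ Q) {b : ℝ} {w : A} (hz : Q (b, w) ≠ 0) (u : ℍ[ℝ]) :
    HasDerivAt (fun b => Q (b, w) * u * (Q (b, w))⁻¹)
      (pQ Q (b, w) * (Q (b, w) * u * (Q (b, w))⁻¹) -
        (Q (b, w) * u * (Q (b, w))⁻¹) * pQ Q (b, w)) b := by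
  have h1 := ((hasDerivAt_Q hQ b w).mul_const u).fun_mul (hasDerivAt_invQ hQ hz)
  have h2 : (Q (b, w))⁻¹ * Q (b, w) = 1 := inv_mul_cancel₀ hz
  have h3 : fderiv ℝ Q (b, w) (1, 0) * u * (Q (b, w))⁻¹ +
      Q (b, w) * u * -((Q (b, w))⁻¹ * fderiv ℝ Q (b, w) (1, 0) * (Q (b, w))⁻¹) =
      pQ Q (b, w) * (Q (b, w) * u * (Q (b, w))⁻¹) -
        (Q (b, w) * u * (Q (b, w))⁻¹) * pQ Q (b, w) := by
    have h4 : pQ Q (b, w) * (Q (b, w) * u * (Q (b, w))⁻¹) =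
        fderiv ℝ Q (b, w) (1, 0) * ((Q (b, w))⁻¹ * Q (b, w)) * u * (Q (b, w))⁻¹ := by
      simp only [pQ, mul_assoc]
    rw [h4, h2, mul_one]
    simp only [pQ, mul_assoc, mul_neg, sub_eq_add_neg]
  rw [h3] at h1
  exact h1

/-- the derivative of `b ↦ thQ` -/
lemma hasDerivAt_thQ (hQ : ContDiff ℝ ∞ Q) {b : ℝ} {w : A} (hz : Q (b, w) ≠ 0) (u : ℍ[ℝ]) :
    HasDerivAt (fun b => thQ Q (b, w) u)
      (lamQ Q (b, w) (Q (b, w) * u * (Q (b, w))⁻¹)) b := by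
  have hD : HasDerivAt (fun b => fderiv ℝ Q (b, w)) (fderiv ℝ (fderiv ℝ Q) (b, w) (1, 0)) b := by
    have h1 : HasFDerivAt (fderiv ℝ Q) (fderiv ℝ (fderiv ℝ Q) (b, w)) (b, w) :=
      ((hQ.fderiv_right (m := ∞) (by simp)).differentiable (by simp) (b, w)).hasFDerivAt
    exact HasFDerivAt.comp_hasDerivAt (𝕜 := ℝ) (l := fderiv ℝ Q) (f := fun b : ℝ => (b, w)) b h1
      (hasDerivAt_line b w)
  have hL := hD.clm_comp (hasDerivAt_const b (ContinuousLinearMap.inr ℝ ℝ A))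
  have hM : HasDerivAt (fun b => ContinuousLinearMap.mul ℝ ℍ[ℝ] (Q (b, w))⁻¹)
      (ContinuousLinearMap.mul ℝ ℍ[ℝ]
        (-((Q (b, w))⁻¹ * fderiv ℝ Q (b, w) (1, 0) * (Q (b, w))⁻¹))) b :=
    (ContinuousLinearMap.mul ℝ ℍ[ℝ]).hasFDerivAt.comp_hasDerivAt b (hasDerivAt_invQ hQ hz)
  have hML := hM.clm_comp hL
  have hI := (hasDerivAt_const b (innerSL ℝ u)).clm_comp hML
  have hT := hI.const_smul (2 : ℝ)
  have hfun : (fun b => thQ Q (b, w) u) = (2 : ℝ) • fun y => (innerSL ℝ u).comp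
      ((ContinuousLinearMap.mul ℝ ℍ[ℝ] (Q (y, w))⁻¹).comp ((fderiv ℝ Q (y, w)).comp
        (ContinuousLinearMap.inr ℝ ℝ A))) := rfl
  rw [hfun]
  refine hT.congr_deriv ?_
  refine ContinuousLinearMap.ext fun ξ => ?_
  rw [lamQ_apply, real_inner_comm, ← inner_conj, fderiv_pQ hQ hz, snd_symm hQ _ (0, ξ) (1, 0)]
  simp only [_root_.smul_apply, _root_.add_apply, ContinuousLinearMap.comp_apply,
    ContinuousLinearMap.mul_apply', ContinuousLinearMap.inr_apply, innerSL_apply_apply,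
    _root_.zero_apply, ContinuousLinearMap.comp_zero, smul_eq_mul, zero_add, add_zero]
  rw [real_inner_comm]
  congr 2
  have h2 : (Q (b, w))⁻¹ * Q (b, w) = 1 := inv_mul_cancel₀ hz
  simp only [mul_sub, sub_mul, mul_assoc, h2, mul_one, neg_mul]
  abel

end Vale.Agent.P265.H185
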