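import Mathlib

/-! The smooth step function and periodization in time. -/

open Set Filter Topology Metric
open scoped ContDiff

noncomputable section

namespace Vale.Agent.P265.H185

/-- The smooth step: `0` for `t ≤ 1/4`, `1` for `t ≥ 3/4`. -/
def stp (t : ℝ) : ℝ := Real.smoothTransition (2 * t - 1 / 2)

/-- The derivative of the step. -/
def dstp (t : ℝ) : ℝ := deriv stp t

lemma stp_contDiff : ContDiff ℝ ∞ stp := by
  unfold stp
  exact Real.smoothTransition.contDiff.comp (by fun_prop)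

lemma stp_zero {t : ℝ} (h : t ≤ 1 / 4) : stp t = 0 :=
  Real.smoothTransition.zero_of_nonpos (by linarith)

lemma stp_one {t : ℝ} (h : 3 / 4 ≤ t) : stp t = 1 :=
  Real.smoothTransition.one_of_one_le (by linarith)

lemma stp_mem (t : ℝ) : stp t ∈ Icc (0 : ℝ) 1 :=
  ⟨Real.smoothTransition.nonneg _, Real.smoothTransition.le_one _⟩

lemma dstp_contDiff : ContDiff ℝ ∞ dstp :=
  (contDiff_infty_iff_deriv.1 stp_contDiff).2

lemma stp_hasDerivAt (t : ℝ) : HasDerivAt stp (dstp t) t :=
  (stp_contDiff.differentiable (by simp) t).hasDerivAt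

lemma dstp_zero {t : ℝ} (h : t ∉ Ioo (1 / 4 : ℝ) (3 / 4)) : dstp t = 0 := by
  rcases le_or_gt t (1 / 4) with h1 | h1
  · apply IsLocalMin.deriv_eq_zero
    refine Filter.Eventually.of_forall fun s => ?_
    simp only [stp_zero h1]
    exact (stp_mem s).1
  · have h2 : 3 / 4 ≤ t := by
      by_contra hcon
      exact h ⟨h1, not_le.1 hcon⟩
    apply IsLocalMax.deriv_eq_zero
    refine Filter.Eventually.of_forall fun s => ?_
    simp only [stp_one h2]
    exact (stp_mem s).2

variable {E W : Type*}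

/-- Periodization in time. -/
def per (y : ℝ × E → W) : ℝ × E → W := fun p => y (Int.fract p.1, p.2)

lemma per_add_one (y : ℝ × E → W) (t : ℝ) (x : E) : per y (t + 1, x) = per y (t, x) := by
  simp [per]

lemma per_eq [Zero W] {y : ℝ × E → W} (hy : ∀ t x, t ∉ Ioo (1 / 4 : ℝ) (3 / 4) → y (t, x) = 0)
    {t : ℝ} (ht : t ∈ Ioo (-1 / 4 : ℝ) (5 / 4)) (x : E) : per y (t, x) = y (t, x) := by
  simp only [per]
  rcases lt_or_ge t 0 with h0 | h0
  · have h1 : Int.fract t = t + 1 := by
      rw [Int.fract_eq_iff]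
      refine ⟨by linarith [ht.1], by linarith, -1, by push_cast; ring⟩
    rw [h1, hy, hy]
    · intro h; linarith [h.1]
    · intro h; linarith [h.2, ht.1]
  · rcases lt_or_ge t 1 with h1 | h1
    · have h2 : Int.fract t = t := Int.fract_eq_self.2 ⟨h0, h1⟩
      rw [h2]
    · have h2 : Int.fract t = t - 1 := by
        rw [Int.fract_eq_iff]
        refine ⟨by linarith, by linarith [ht.2], 1, by push_cast; ring⟩
      rw [h2, hy, hy]
      · intro h; linarith [h.2]
      · intro h; linarith [h.1, ht.2]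

lemma per_contDiffOn [NormedAddCommGroup E] [NormedSpace ℝ E] [NormedAddCommGroup W]
    [NormedSpace ℝ W] {y : ℝ × E → W}
    (hy : ∀ t x, t ∉ Ioo (1 / 4 : ℝ) (3 / 4) → y (t, x) = 0) {Ω : Set (ℝ × E)}
    (h : ContDiffOn ℝ ∞ y Ω) :
    ContDiffOn ℝ ∞ (per y) (Ω ∩ Ioo (-1 / 4 : ℝ) (5 / 4) ×ˢ univ) := by
  refine (h.mono inter_subset_left).congr ?_
  rintro ⟨t, x⟩ ⟨_, ht, _⟩
  exact per_eq hy ht x

end Vale.Agent.P265.H185
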