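import Vale.Agent.P265.H185.QCalc
import Vale.Agent.P265.H185.Step
import Vale.Agent.P265.H185.Avg

/-! The Hamiltonian flow generated by a path of quaternion valued maps, for small `κ`. -/

open Set Filter Topology Metric
open scoped ContDiff Quaternion

noncomputable section

namespace Vale.Agent.P265.H185

variable {A C : Type} [NormedAddCommGroup A] [NormedSpace ℝ A] [FiniteDimensional ℝ A]
  [NormedAddCommGroup C] [NormedSpace ℝ C] [FiniteDimensional ℝ C]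

/-- the `v`-velocity -/
def zf (Q : ℝ × A → ℍ[ℝ]) (p : ℝ × (A × ℍ[ℝ])) : ℍ[ℝ] :=
  dstp p.1 • (pQ Q (stp p.1, p.2.1) * p.2.2 - p.2.2 * pQ Q (stp p.1, p.2.1))

/-- the `w`-velocity, divided by `κ` -/
def yf (Q : ℝ × A → ℍ[ℝ]) (J : A → (A →L[ℝ] ℝ) →L[ℝ] A) (p : ℝ × (A × ℍ[ℝ])) : A :=
  dstp p.1 • J p.2.1 (lamQ Q (stp p.1, p.2.1) p.2.2)

/-- the Hamiltonian, divided by `κ` -/
def hf (Q : ℝ × A → ℍ[ℝ]) (p : ℝ × (A × ℍ[ℝ])) : ℝ :=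
  dstp p.1 * (2 * inner ℝ (pQ Q (stp p.1, p.2.1)) p.2.2)

/-- the `v`-part of the explicit solution -/
def Sf (Q : ℝ × A → ℍ[ℝ]) (Q0 : ℍ[ℝ]) (t : ℝ) (x : A × ℍ[ℝ]) : ℍ[ℝ] :=
  Q (stp t, x.1) * (Q0⁻¹ * x.2 * Q0) * (Q (stp t, x.1))⁻¹

/-- the rescaled displacement of the explicit solution -/
def af (Q : ℝ × A → ℍ[ℝ]) (J : A → (A →L[ℝ] ℝ) →L[ℝ] A) (Q0 : ℍ[ℝ]) (t : ℝ) (x : A × ℍ[ℝ]) : A :=
  J x.1 (thQ Q (stp t, x.1) (Q0⁻¹ * x.2 * Q0))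

/-- the domain of smoothness -/
def dom (Q : ℝ × A → ℍ[ℝ]) (OA : Set A) : Set (ℝ × (A × ℍ[ℝ])) :=
  {p | Q (stp p.1, p.2.1) ≠ 0 ∧ p.2.1 ∈ OA}

variable {Q : ℝ × A → ℍ[ℝ]} {J : A → (A →L[ℝ] ℝ) →L[ℝ] A} {OA : Set A}

omit [FiniteDimensional ℝ A] in
lemma isOpen_dom (hQ : ContDiff ℝ ∞ Q) (hOA : IsOpen OA) : IsOpen (dom Q OA) := by
  have h1 : Continuous fun p : ℝ × (A × ℍ[ℝ]) => Q (stp p.1, p.2.1) :=
    hQ.continuous.comp (((stp_contDiff.continuous).comp continuous_fst).prodMk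
      (continuous_fst.comp continuous_snd))
  exact (isOpen_ne_fun h1 continuous_const).inter
    (hOA.preimage (continuous_fst.comp continuous_snd))

omit [FiniteDimensional ℝ A] in
lemma contDiff_base : ContDiff ℝ ∞ fun p : ℝ × (A × ℍ[ℝ]) => (stp p.1, p.2.1) :=
  (stp_contDiff.comp contDiff_fst).prodMk (contDiff_fst.comp contDiff_snd)

omit [FiniteDimensional ℝ A] in
lemma contDiffAt_pf (hQ : ContDiff ℝ ∞ Q) {p : ℝ × (A × ℍ[ℝ])} (hp : Q (stp p.1, p.2.1) ≠ 0) :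
    ContDiffAt ℝ ∞ (fun p : ℝ × (A × ℍ[ℝ]) => pQ Q (stp p.1, p.2.1)) p :=
  ContDiffAt.comp p (contDiffAt_pQ hQ hp) contDiff_base.contDiffAt

omit [FiniteDimensional ℝ A] in
lemma contDiffOn_zf (hQ : ContDiff ℝ ∞ Q) : ContDiffOn ℝ ∞ (zf Q) (dom Q OA) := by
  intro p hp
  have h1 := contDiffAt_pf hQ hp.1
  have h2 : ContDiffAt ℝ ∞ (fun p : ℝ × (A × ℍ[ℝ]) => dstp p.1) p :=
    (dstp_contDiff.comp contDiff_fst).contDiffAt
  have h3 : ContDiffAt ℝ ∞ (fun p : ℝ × (A × ℍ[ℝ]) => p.2.2) p := by fun_prop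
  exact (h2.smul ((h1.mul h3).sub (h3.mul h1))).contDiffWithinAt

omit [FiniteDimensional ℝ A] in
lemma contDiffOn_hf (hQ : ContDiff ℝ ∞ Q) : ContDiffOn ℝ ∞ (hf Q) (dom Q OA) := by
  intro p hp
  have h1 := contDiffAt_pf hQ hp.1
  have h2 : ContDiffAt ℝ ∞ (fun p : ℝ × (A × ℍ[ℝ]) => dstp p.1) p :=
    (dstp_contDiff.comp contDiff_fst).contDiffAt
  have h3 : ContDiffAt ℝ ∞ (fun p : ℝ × (A × ℍ[ℝ]) => p.2.2) p := by fun_prop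
  exact (h2.mul (contDiffAt_const.mul (h1.inner ℝ h3))).contDiffWithinAt

lemma contDiffOn_yf (hQ : ContDiff ℝ ∞ Q) (hOA : IsOpen OA) (hJ : ContDiffOn ℝ ∞ J OA) :
    ContDiffOn ℝ ∞ (yf Q J) (dom Q OA) := by
  have hlam : ContDiffOn ℝ ∞
      (fun p : ℝ × (A × ℍ[ℝ]) => lamQ Q (stp p.1, p.2.1) p.2.2) (dom Q OA) := by
    rw [contDiffOn_clm_apply]
    intro ξ p hp
    simp only [lamQ_apply]
    have h1 : ContDiffAt ℝ ∞ (fderiv ℝ (pQ Q)) (stp p.1, p.2.1) :=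
      (contDiffAt_pQ hQ hp.1).fderiv_right (m := ∞) (by simp)
    have h2 : ContDiffAt ℝ ∞ (fun p : ℝ × (A × ℍ[ℝ]) => fderiv ℝ (pQ Q) (stp p.1, p.2.1)) p :=
      ContDiffAt.comp p h1 contDiff_base.contDiffAt
    have h3 := h2.clm_apply (contDiffAt_const (c := ((0 : ℝ), ξ)))
    have h4 : ContDiffAt ℝ ∞ (fun p : ℝ × (A × ℍ[ℝ]) => p.2.2) p := by fun_prop
    exact (contDiffAt_const.mul (h4.inner ℝ h3)).contDiffWithinAt
  intro p hp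
  have h2 : ContDiffWithinAt ℝ ∞ (fun p : ℝ × (A × ℍ[ℝ]) => dstp p.1) (dom Q OA) p :=
    (dstp_contDiff.comp contDiff_fst).contDiffAt.contDiffWithinAt
  have h3 : ContDiffAt ℝ ∞ (fun p : ℝ × (A × ℍ[ℝ]) => J p.2.1) p :=
    ContDiffAt.comp p (hJ.contDiffAt (hOA.mem_nhds hp.2)) (by fun_prop)
  exact h2.smul (h3.contDiffWithinAt.clm_apply (hlam p hp))

omit [FiniteDimensional ℝ A] in
lemma zf_zero (t : ℝ) (x : A × ℍ[ℝ]) (ht : t ∉ Ioo (1 / 4 : ℝ) (3 / 4)) : zf Q (t, x) = 0 := by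
  simp [zf, dstp_zero ht]

omit [FiniteDimensional ℝ A] in
lemma yf_zero (t : ℝ) (x : A × ℍ[ℝ]) (ht : t ∉ Ioo (1 / 4 : ℝ) (3 / 4)) : yf Q J (t, x) = 0 := by
  simp [yf, dstp_zero ht]

omit [FiniteDimensional ℝ A] in
lemma hf_zero (t : ℝ) (x : A × ℍ[ℝ]) (ht : t ∉ Ioo (1 / 4 : ℝ) (3 / 4)) : hf Q (t, x) = 0 := by
  simp [hf, dstp_zero ht]

omit [FiniteDimensional ℝ A] in
/-- the derivative of the Hamiltonian -/
lemma fderiv_hf (hQ : ContDiff ℝ ∞ Q) {t : ℝ} {x : A × ℍ[ℝ]} (hx : Q (stp t, x.1) ≠ 0)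
    (η : A × ℍ[ℝ]) : fderiv ℝ (fun x => hf Q (t, x)) x η =
      dstp t * (lamQ Q (stp t, x.1) x.2 η.1 + 2 * inner ℝ (pQ Q (stp t, x.1)) η.2) := by
  have h1 : HasFDerivAt (pQ Q) (fderiv ℝ (pQ Q) (stp t, x.1)) (stp t, x.1) :=
    ((contDiffAt_pQ hQ hx).differentiableAt (by simp)).hasFDerivAt
  have h2 : HasFDerivAt (fun x : A × ℍ[ℝ] => (stp t, x.1))
      ((ContinuousLinearMap.inr ℝ ℝ A).comp (ContinuousLinearMap.fst ℝ A ℍ[ℝ])) x :=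
    (hasFDerivAt_prodMk_right (stp t) x.1).comp x (ContinuousLinearMap.fst ℝ A ℍ[ℝ]).hasFDerivAt
  have h3 := h1.comp x h2
  have h4 := h3.inner ℝ (ContinuousLinearMap.snd ℝ A ℍ[ℝ]).hasFDerivAt
  have h5 := (h4.const_mul 2).const_mul (dstp t)
  have h6 : (fun x => hf Q (t, x)) = fun y => dstp t * (2 * inner ℝ
      ((pQ Q ∘ fun x : A × ℍ[ℝ] => (stp t, x.1)) y) ((ContinuousLinearMap.snd ℝ A ℍ[ℝ]) y)) := rfl
  rw [h6, h5.fderiv]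
  simp only [_root_.smul_apply, ContinuousLinearMap.comp_apply, ContinuousLinearMap.prod_apply,
    fderivInnerCLM_apply, smul_eq_mul, ContinuousLinearMap.coe_snd', ContinuousLinearMap.coe_fst',
    ContinuousLinearMap.inr_apply, Function.comp, lamQ_apply]
  rw [real_inner_comm x.2]
  ring

end Vale.Agent.P265.H185
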