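import Vale.Agent.P265.H185.QFlow

/-! The Hamiltonian flow generated by a path of quaternion valued maps: main theorem. -/

open Set Filter Topology Metric
open scoped ContDiff Quaternion

noncomputable section

namespace Vale.Agent.P265.H185

variable {A C : Type} [NormedAddCommGroup A] [NormedSpace ℝ A] [FiniteDimensional ℝ A]
  [NormedAddCommGroup C] [NormedSpace ℝ C] [FiniteDimensional ℝ C]

theorem quat_flow {G : A × ℍ[ℝ] → C} (hG : ContDiff ℝ ∞ G) (hcpt : IsCompact {x | ‖G x‖ ≤ 1})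
    (hGv : ∀ (x : A × ℍ[ℝ]) (p : ℍ[ℝ]), fderiv ℝ G x (0, p * x.2 - x.2 * p) = 0)
    (hGc : ∀ (w : A) (v q : ℍ[ℝ]), q ≠ 0 → G (w, q * v * q⁻¹) = G (w, v))
    {Q : ℝ × A → ℍ[ℝ]} (hQ : ContDiff ℝ ∞ Q) {Q0 : ℍ[ℝ]} (hQ0 : ∀ w, Q (0, w) = Q0)
    (hQ0' : Q0 ≠ 0)
    (hQne : ∀ b ∈ Icc (0 : ℝ) 1, ∀ x, G x = 0 → Q (b, x.1) ≠ 0)
    {OA : Set A} (hOA : IsOpen OA) (hOA' : ∀ x, G x = 0 → x.1 ∈ OA)
    {J : A → (A →L[ℝ] ℝ) →L[ℝ] A} (hJ : ContDiffOn ℝ ∞ J OA)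
    (hGJ : ∀ x : A × ℍ[ℝ], x.1 ∈ OA → ∀ β, fderiv ℝ G x (J x.1 β, 0) = 0)
    {omW : A → A → A → ℝ} (hsmul : ∀ w, ∀ (c : ℝ) (a b : A), omW w (c • a) b = c * omW w a b)
    (hω : ∀ x, G x = 0 → ∀ β η, fderiv ℝ G x η = 0 → omW x.1 (J x.1 β) η.1 = β η.1)
    (hv : ∀ x, G x = 0 → x.2.re = 0 ∧ Quaternion.normSq x.2 = 1)
    (hη : ∀ x, G x = 0 → ∀ η, fderiv ℝ G x η = 0 → η.2.re = 0 ∧ inner ℝ x.2 η.2 = 0)
    (hinj : ∀ x, G x = 0 → af Q J Q0 1 x = 0 → Sf Q Q0 1 x = x.2 → ∀ ξ : A × ℍ[ℝ],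
      fderiv ℝ G x ξ = 0 → fderiv ℝ (af Q J Q0 1) x ξ = 0 →
      fderiv ℝ (Sf Q Q0 1) x ξ = ξ.2 → ξ = 0) :
    ∃ δ > 0, ∀ κ : ℝ, 0 < κ → κ < δ →
      ∃ (H : ℝ → A × ℍ[ℝ] → ℝ) (Φ : ℝ → A × ℍ[ℝ] → A × ℍ[ℝ]),
        (∀ t x, G x = 0 → G (Φ t x) = 0) ∧
        (∀ t x, G x = 0 → ContDiffAt ℝ ∞ (fun q : ℝ × (A × ℍ[ℝ]) => H q.1 q.2) (t, x)) ∧
        (∀ t x, H (t + 1) x = H t x) ∧
        ContDiff ℝ ∞ (fun q : ℝ × (A × ℍ[ℝ]) => Φ q.1 q.2) ∧
        (∀ x, Φ 0 x = x) ∧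
        (∀ t x, G x = 0 → ∀ w, fderiv ℝ G (Φ t x) w = 0 →
          omW (Φ t x).1 (deriv (fun s => Φ s x) t).1 w.1 +
            κ * (1 / 2 * inner ℝ (Φ t x).2 ((deriv (fun s => Φ s x) t).2 * w.2 -
              w.2 * (deriv (fun s => Φ s x) t).2)) = fderiv ℝ (H t) (Φ t x) w) ∧
        (∀ x, G x = 0 → Φ 1 x = x → ∀ ξ, fderiv ℝ G x ξ = 0 → fderiv ℝ (Φ 1) x ξ = ξ → ξ = 0) ∧
        {x | G x = 0 ∧ Φ 1 x = x}.encard ≤
          {x | G x = 0 ∧ af Q J Q0 1 x = 0 ∧ Sf Q Q0 1 x = x.2}.encard := by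
  set Ω : Set (ℝ × (A × ℍ[ℝ])) := dom Q OA ∩ Ioo (-1 / 4 : ℝ) (5 / 4) ×ˢ univ with hΩ
  have hΩo : IsOpen Ω := (isOpen_dom hQ hOA).inter (isOpen_Ioo.prod isOpen_univ)
  have hI : ∀ t ∈ Icc (0 : ℝ) 1, t ∈ Ioo (-1 / 4 : ℝ) (5 / 4) := fun t ht =>
    ⟨by linarith [ht.1], by linarith [ht.2]⟩
  have hΩG : ∀ t ∈ Icc (0 : ℝ) 1, ∀ x, G x = 0 → (t, x) ∈ Ω := fun t ht x hx =>
    ⟨⟨hQne _ (stp_mem t) x hx, hOA' x hx⟩, hI t ht, trivial⟩
  have hYs : ContDiffOn ℝ ∞ (per (yf Q J)) Ω := per_contDiffOn yf_zero (contDiffOn_yf hQ hOA hJ)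
  have hZs : ContDiffOn ℝ ∞ (per (zf Q)) Ω := per_contDiffOn zf_zero (contDiffOn_zf hQ)
  have hHs : ContDiffOn ℝ ∞ (per (hf Q)) Ω := per_contDiffOn hf_zero (contDiffOn_hf hQ)
  have hs0 : stp 0 = 0 := stp_zero (by norm_num)
  have hs1 : stp 1 = 1 := stp_one (by norm_num)
  obtain ⟨φ, hφ, hφ0, hφG, hφd, δ, hδ, hfix⟩ := averaging hG hcpt hΩo hΩG hYs hZs
    (per_add_one _) (per_add_one _) (S := Sf Q Q0) (a := af Q J Q0)
    (by
      intro t ht x hx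
      rw [per_eq yf_zero (hI t ht)]
      have h1 := hGJ x hx.1.2 (lamQ Q (stp t, x.1) x.2)
      have h2 : ((yf Q J (t, x), 0) : A × ℍ[ℝ]) =
          dstp t • (J x.1 (lamQ Q (stp t, x.1) x.2), 0) := by simp [yf]
      rw [h2, map_smul, h1, smul_zero])
    (by
      intro t ht x hx
      rw [per_eq zf_zero (hI t ht)]
      have h1 := hGv x (pQ Q (stp t, x.1))
      have h2 : ((0, zf Q (t, x)) : A × ℍ[ℝ]) =
          dstp t • (0, pQ Q (stp t, x.1) * x.2 - x.2 * pQ Q (stp t, x.1)) := by simp [zf]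
      rw [h2, map_smul, h1, smul_zero])
    (by
      intro x _
      simp only [Sf, hs0, hQ0, mul_assoc, mul_inv_cancel₀ hQ0', mul_one]
      rw [← mul_assoc, mul_inv_cancel₀ hQ0', one_mul])
    (by
      intro x _
      simp only [af, hs0]
      have h1 : thQ Q (0, x.1) (Q0⁻¹ * x.2 * Q0) = 0 := by
        refine ContinuousLinearMap.ext fun ξ => ?_
        rw [thQ_apply]
        have h2 : HasFDerivAt (fun w => Q (0, w)) ((fderiv ℝ Q (0, x.1)).comp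
            (ContinuousLinearMap.inr ℝ ℝ A)) x.1 :=
          ((hQ.differentiable (by simp) (0, x.1)).hasFDerivAt).comp x.1
            (hasFDerivAt_prodMk_right (0 : ℝ) x.1)
        have h3 : (fun w => Q (0, w)) = fun _ => Q0 := funext hQ0
        rw [h3] at h2
        have h4 := h2.unique (hasFDerivAt_const Q0 x.1)
        have h5 : fderiv ℝ Q (0, x.1) (0, ξ) = 0 := congrArg (fun L => L ξ) h4
        rw [h5]
        simp
      rw [h1, map_zero])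
    (by
      intro x hx t ht
      have h1 : Q (stp t, x.1) ≠ 0 := (hx t ht).1.1
      have h2 : Sf Q Q0 t x =
          (Q (stp t, x.1) * Q0⁻¹) * x.2 * (Q (stp t, x.1) * Q0⁻¹)⁻¹ := by
        simp only [Sf, mul_inv_rev, inv_inv, mul_assoc]
      rw [h2]
      exact hGc _ _ _ (mul_ne_zero h1 (inv_ne_zero hQ0')))
    (by
      intro x hx t ht
      have h1 : Q (stp t, x.1) ≠ 0 := (hx t ht).1.1
      rw [per_eq zf_zero (hI t ht)]
      have h2 := (hasDerivAt_conj hQ h1 (Q0⁻¹ * x.2 * Q0)).scomp t (stp_hasDerivAt t)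
      exact h2)
    (by
      intro x hx t ht
      have h1 : Q (stp t, x.1) ≠ 0 := (hx t ht).1.1
      rw [per_eq yf_zero (hI t ht)]
      have h2 := (hasDerivAt_thQ hQ h1 (Q0⁻¹ * x.2 * Q0)).scomp t (stp_hasDerivAt t)
      have h3 := (J x.1).hasFDerivAt.comp_hasDerivAt t h2
      rw [map_smul] at h3
      exact h3)
    hinj
  refine ⟨δ, hδ, fun κ hκ hκδ => ?_⟩
  obtain ⟨hcard, hnd⟩ := hfix κ hκ hκδ
  refine ⟨fun t x => κ * per (hf Q) (t, x), φ κ, fun t x hx => by rw [hφG, hx], ?_, ?_, ?_, hφ0 κ,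
    ?_, hnd, hcard⟩
  · intro t x hx
    have h1 : ContDiffAt ℝ ∞ (per (hf Q)) (t, x) :=
      contDiffAt_periodic (G := G) (δ := 0) hΩo
        (fun t ht x hx => hΩG t ht x (norm_le_zero_iff.1 hx)) hHs (per_add_one _) t x
        (by rw [hx, norm_zero])
    exact contDiffAt_const.mul h1
  · intro t x
    simp only [per_add_one]
  · exact hφ.comp (f := fun q : ℝ × (A × ℍ[ℝ]) => (κ, q.1, q.2)) (by fun_prop)
  · intro t x hx w hw
    set y := φ κ t x with hy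
    have hGy : G y = 0 := by rw [hy, hφG, hx]
    have hfr : Int.fract t ∈ Icc (0 : ℝ) 1 := ⟨Int.fract_nonneg t, (Int.fract_lt_one t).le⟩
    have hQy : Q (stp (Int.fract t), y.1) ≠ 0 := hQne _ (stp_mem _) y hGy
    rw [(hφd κ t x hx).deriv]
    simp only [← hy]
    have h1 : fderiv ℝ (fun x => κ * per (hf Q) (t, x)) y w =
        κ * fderiv ℝ (fun x => hf Q (Int.fract t, x)) y w := by
      have h2 : DifferentiableAt ℝ (fun x => hf Q (Int.fract t, x)) y := by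
        have h3 : ContDiffAt ℝ ∞ (hf Q) (Int.fract t, y) :=
          (contDiffOn_hf (OA := OA) hQ).contDiffAt ((isOpen_dom hQ hOA).mem_nhds
            ⟨hQy, hOA' y hGy⟩)
        exact DifferentiableAt.comp (g := hf Q) (f := fun x => (Int.fract t, x)) y
          (h3.differentiableAt (by simp)) (by fun_prop)
      have h4 : (fun x => κ * per (hf Q) (t, x)) = fun x => κ * hf Q (Int.fract t, x) := rfl
      rw [h4, fderiv_const_mul h2]
      simp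
    have h5 : omW y.1 (κ • per (yf Q J) (t, y)) w.1 =
        κ * (dstp (Int.fract t) * lamQ Q (stp (Int.fract t), y.1) y.2 w.1) := by
      rw [hsmul]
      simp only [per, yf]
      rw [hsmul, hω y hGy _ w hw]
    have h6 : (1 / 2 : ℝ) * inner ℝ y.2 (per (zf Q) (t, y) * w.2 - w.2 * per (zf Q) (t, y)) =
        dstp (Int.fract t) * (2 * inner ℝ (pQ Q (stp (Int.fract t), y.1)) w.2) := by
      obtain ⟨h7, h8⟩ := hv y hGy
      obtain ⟨h9, h10⟩ := hη y hGy w hw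
      rw [← sigma_velocity _ _ _ h7 h8 h9 h10]
      simp only [per, zf, smul_mul_assoc, mul_smul_comm, ← smul_sub, inner_smul_right]
      ring
    rw [h1, fderiv_hf hQ hQy, h5, h6]
    ring

end Vale.Agent.P265.H185
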