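import Vale.Agent.P265.H185.Cutoff

/-!
The smooth family of flows of the fields `(κ Y, Z)`, together with the rescaled displacement.
-/

open Set Filter Topology Metric
open scoped ContDiff NNReal

noncomputable section

set_option linter.unusedSectionVars false

namespace Vale.Agent.P265.H185

/-- Uniqueness of solutions on `[0, 1]`. -/
theorem unique_Icc {V : Type} [NormedAddCommGroup V] [NormedSpace ℝ V] [FiniteDimensional ℝ V]
    {g : V → V} (hg : ContDiff ℝ 1 g) {c c' : ℝ → V}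
    (h : ∀ t ∈ Icc (0 : ℝ) 1, HasDerivAt c (g (c t)) t)
    (h' : ∀ t ∈ Icc (0 : ℝ) 1, HasDerivAt c' (g (c' t)) t) (h0 : c 0 = c' 0) :
    EqOn c c' (Icc (0 : ℝ) 1) := by
  have hc : ContinuousOn c (Icc (0 : ℝ) 1) := fun t ht => (h t ht).continuousAt.continuousWithinAt
  have hc' : ContinuousOn c' (Icc (0 : ℝ) 1) :=
    fun t ht => (h' t ht).continuousAt.continuousWithinAt
  have hcomp : IsCompact (c '' Icc (0 : ℝ) 1 ∪ c' '' Icc (0 : ℝ) 1) :=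
    (isCompact_Icc.image_of_continuousOn hc).union (isCompact_Icc.image_of_continuousOn hc')
  obtain ⟨K, hK⟩ := (hg.locallyLipschitz.locallyLipschitzOn
    (s := c '' Icc (0 : ℝ) 1 ∪ c' '' Icc (0 : ℝ) 1)).exists_lipschitzOnWith_of_compact hcomp
  apply ODE_solution_unique_of_mem_Icc_right (v := fun _ => g) (K := K)
    (s := fun _ => c '' Icc (0 : ℝ) 1 ∪ c' '' Icc (0 : ℝ) 1) (fun _ _ => hK) hc
    (fun t ht => (h t (Ico_subset_Icc_self ht)).hasDerivWithinAt)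
    (fun t ht => Or.inl (mem_image_of_mem c (Ico_subset_Icc_self ht))) hc'
    (fun t ht => (h' t (Ico_subset_Icc_self ht)).hasDerivWithinAt)
    (fun t ht => Or.inr (mem_image_of_mem c' (Ico_subset_Icc_self ht))) h0

lemma hd_fst {X Y : Type*} [NormedAddCommGroup X] [NormedSpace ℝ X] [NormedAddCommGroup Y]
    [NormedSpace ℝ Y] {f : ℝ → X × Y} {p : X × Y} {t : ℝ} (h : HasDerivAt f p t) :
    HasDerivAt (fun s => (f s).1) p.1 t := h.fst

lemma hd_snd {X Y : Type*} [NormedAddCommGroup X] [NormedSpace ℝ X] [NormedAddCommGroup Y]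
    [NormedSpace ℝ Y] {f : ℝ → X × Y} {p : X × Y} {t : ℝ} (h : HasDerivAt f p t) :
    HasDerivAt (fun s => (f s).2) p.2 t := h.snd

variable {A B : Type} [NormedAddCommGroup A] [NormedSpace ℝ A] [FiniteDimensional ℝ A]
  [NormedAddCommGroup B] [NormedSpace ℝ B] [FiniteDimensional ℝ B]

/-- The autonomous field of the system; the variables are `(κ, t, x, a)`. -/
def sysField (Y : ℝ × (A × B) → A) (Z : ℝ × (A × B) → B) :
    ℝ × ℝ × (A × B) × A → ℝ × ℝ × (A × B) × A :=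
  fun p => (0, 1, (p.1 • Y (p.2.1, p.2.2.1), Z (p.2.1, p.2.2.1)), Y (p.2.1, p.2.2.1))

lemma sysField_contDiff {Y : ℝ × (A × B) → A} {Z : ℝ × (A × B) → B} (hY : ContDiff ℝ ∞ Y)
    (hZ : ContDiff ℝ ∞ Z) : ContDiff ℝ ∞ (sysField Y Z) := by
  have h1 : ContDiff ℝ ∞ (fun p : ℝ × ℝ × (A × B) × A => Y (p.2.1, p.2.2.1)) :=
    hY.comp (by fun_prop)
  have h2 : ContDiff ℝ ∞ (fun p : ℝ × ℝ × (A × B) × A => Z (p.2.1, p.2.2.1)) :=
    hZ.comp (by fun_prop)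
  unfold sysField
  fun_prop

lemma sys_global {Y : ℝ × (A × B) → A} {Z : ℝ × (A × B) → B} (hY : ContDiff ℝ ∞ Y)
    (hZ : ContDiff ℝ ∞ Z) {c : ℝ} (hYc : ∀ p, ‖Y p‖ ≤ c) (hZc : ∀ p, ‖Z p‖ ≤ c)
    (p : ℝ × ℝ × (A × B) × A) :
    ∃ γ : ℝ → ℝ × ℝ × (A × B) × A, γ 0 = p ∧ ∀ t, HasDerivAt γ (sysField Y Z (γ t)) t := by
  set g : ℝ × ℝ × (A × B) × A → ℝ × ℝ × (A × B) × A :=
    fun q => (0, 1, (p.1 • Y (q.2.1, q.2.2.1), Z (q.2.1, q.2.2.1)), Y (q.2.1, q.2.2.1)) with hg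
  have hgs : ContDiff ℝ ∞ g := by
    have h1 : ContDiff ℝ ∞ (fun p : ℝ × ℝ × (A × B) × A => Y (p.2.1, p.2.2.1)) :=
      hY.comp (by fun_prop)
    have h2 : ContDiff ℝ ∞ (fun p : ℝ × ℝ × (A × B) × A => Z (p.2.1, p.2.2.1)) :=
      hZ.comp (by fun_prop)
    rw [hg]
    fun_prop
  have hb : ∀ q, ‖g q‖ ≤ 1 + (1 + |p.1|) * c := by
    intro q
    have h1 := hYc (q.2.1, q.2.2.1)
    have h2 := hZc (q.2.1, q.2.2.1)
    have hc0 : 0 ≤ c := (norm_nonneg _).trans h1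
    have h3 : ‖p.1 • Y (q.2.1, q.2.2.1)‖ ≤ |p.1| * c := by
      rw [norm_smul, Real.norm_eq_abs]
      gcongr
    have h4 : 0 ≤ |p.1| * c := by positivity
    simp only [hg, Prod.norm_def, norm_zero, norm_one, sup_le_iff]
    refine ⟨by nlinarith, by nlinarith, ⟨by nlinarith, by nlinarith⟩, by nlinarith⟩
  obtain ⟨γ, h0, h1⟩ := exists_curve_of_bounded (hgs.of_le (by simp)) hb p
  refine ⟨γ, h0, fun t => ?_⟩
  have hκ : ∀ s, (γ s).1 = p.1 := by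
    intro s
    have h2 : ∀ t, HasDerivAt (fun t => (γ t).1) 0 t := fun t => (h1 t).fst
    have h3 := is_const_of_deriv_eq_zero (f := fun t => (γ t).1)
      (fun t => (h2 t).differentiableAt) (fun t => (h2 t).deriv) s 0
    simp only [h0] at h3
    exact h3
  have h4 := h1 t
  have h5 : g (γ t) = sysField Y Z (γ t) := by
    simp only [hg, sysField, hκ t]
  rwa [h5] at h4

/-- The family of flows, with the rescaled displacement `α`. -/
theorem exists_family {Y : ℝ × (A × B) → A} {Z : ℝ × (A × B) → B} (hY : ContDiff ℝ ∞ Y)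
    (hZ : ContDiff ℝ ∞ Z) {c : ℝ} (hYc : ∀ p, ‖Y p‖ ≤ c) (hZc : ∀ p, ‖Z p‖ ≤ c) :
    ∃ (φ : ℝ → ℝ → A × B → A × B) (α : ℝ → ℝ → A × B → A),
      ContDiff ℝ ∞ (fun p : ℝ × ℝ × (A × B) => φ p.1 p.2.1 p.2.2) ∧
      ContDiff ℝ ∞ (fun p : ℝ × ℝ × (A × B) => α p.1 p.2.1 p.2.2) ∧
      (∀ κ x, φ κ 0 x = x) ∧ (∀ κ x, α κ 0 x = 0) ∧
      (∀ κ t x, HasDerivAt (fun s => φ κ s x) (κ • Y (t, φ κ t x), Z (t, φ κ t x)) t) ∧
      (∀ κ t x, HasDerivAt (fun s => α κ s x) (Y (t, φ κ t x)) t) ∧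
      ∀ κ t x, (φ κ t x).1 = x.1 + κ • α κ t x := by
  obtain ⟨Φ, hΦ, hΦ0, hΦd, -⟩ := exists_global_flow (sysField Y Z) (sysField_contDiff hY hZ)
    (sys_global hY hZ hYc hZc)
  have hκ : ∀ κ t x, (Φ t (κ, 0, x, 0)).1 = κ := by
    intro κ s x
    have h2 : ∀ t, HasDerivAt (fun t => (Φ t (κ, 0, x, 0)).1) 0 t :=
      fun t => (hΦd t (κ, 0, x, 0)).fst
    have h3 := is_const_of_deriv_eq_zero (f := fun t => (Φ t (κ, 0, x, 0)).1)
      (fun t => (h2 t).differentiableAt) (fun t => (h2 t).deriv) s 0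
    simp only [hΦ0] at h3
    exact h3
  have ht : ∀ κ t x, (Φ t (κ, 0, x, 0)).2.1 = t := by
    intro κ s x
    have h2 : ∀ t, HasDerivAt (fun t => (Φ t (κ, 0, x, 0)).2.1 - t) 0 t := by
      intro t
      have h4 : HasDerivAt (fun t => (Φ t (κ, 0, x, 0)).2.1) 1 t :=
        hd_fst (hd_snd (hΦd t (κ, 0, x, 0)))
      have h5 := h4.fun_sub (hasDerivAt_id t)
      rw [sub_self] at h5
      exact h5
    have h3 := is_const_of_deriv_eq_zero (f := fun t => (Φ t (κ, 0, x, 0)).2.1 - t)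
      (fun t => (h2 t).differentiableAt) (fun t => (h2 t).deriv) s 0
    simp only [hΦ0, sub_zero] at h3
    linarith
  have hφd : ∀ κ t x, HasDerivAt (fun s => (Φ s (κ, 0, x, 0)).2.2.1)
      (κ • Y (t, (Φ t (κ, 0, x, 0)).2.2.1), Z (t, (Φ t (κ, 0, x, 0)).2.2.1)) t := by
    intro κ t x
    have h1 := hd_fst (hd_snd (hd_snd (hΦd t (κ, 0, x, 0))))
    simp only [sysField, hκ, ht] at h1
    exact h1
  have hαd : ∀ κ t x, HasDerivAt (fun s => (Φ s (κ, 0, x, 0)).2.2.2)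
      (Y (t, (Φ t (κ, 0, x, 0)).2.2.1)) t := by
    intro κ t x
    have h1 := hd_snd (hd_snd (hd_snd (hΦd t (κ, 0, x, 0))))
    simp only [sysField, hκ, ht] at h1
    exact h1
  refine ⟨fun κ t x => (Φ t (κ, 0, x, 0)).2.2.1, fun κ t x => (Φ t (κ, 0, x, 0)).2.2.2,
    ?_, ?_, ?_, ?_, hφd, hαd, ?_⟩
  · have : ContDiff ℝ ∞ (fun p : ℝ × ℝ × (A × B) => Φ p.2.1 (p.1, 0, p.2.2, (0 : A))) :=
      hΦ.comp (g := fun q : ℝ × (ℝ × ℝ × (A × B) × A) => Φ q.1 q.2)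
        (f := fun p : ℝ × ℝ × (A × B) => (p.2.1, (p.1, (0 : ℝ), p.2.2, (0 : A)))) (by fun_prop)
    fun_prop
  · have : ContDiff ℝ ∞ (fun p : ℝ × ℝ × (A × B) => Φ p.2.1 (p.1, 0, p.2.2, (0 : A))) :=
      hΦ.comp (g := fun q : ℝ × (ℝ × ℝ × (A × B) × A) => Φ q.1 q.2)
        (f := fun p : ℝ × ℝ × (A × B) => (p.2.1, (p.1, (0 : ℝ), p.2.2, (0 : A)))) (by fun_prop)
    fun_prop
  · intro κ x
    simp only [hΦ0]
  · intro κ x
    simp only [hΦ0]
  · intro κ t x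
    have h2 : ∀ t, HasDerivAt
        (fun t => (Φ t (κ, 0, x, 0)).2.2.1.1 - κ • (Φ t (κ, 0, x, 0)).2.2.2) 0 t := by
      intro t
      have h4 := hd_fst (hφd κ t x)
      have h5 := (hαd κ t x).fun_const_smul κ
      have h6 := h4.fun_sub h5
      rw [sub_self] at h6
      exact h6
    have h3 := is_const_of_deriv_eq_zero
      (f := fun t => (Φ t (κ, 0, x, 0)).2.2.1.1 - κ • (Φ t (κ, 0, x, 0)).2.2.2)
      (fun t => (h2 t).differentiableAt) (fun t => (h2 t).deriv) t 0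
    simp only [hΦ0, smul_zero, sub_zero] at h3
    exact sub_eq_iff_eq_add.1 h3

end Vale.Agent.P265.H185
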