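import Vale.Agent.P265.H185.Path
import Vale.Agent.P265.H388.SymM
import Vale.Agent.P265.H936.LSForm

/-! The upper bound, from the analysis of the limit system. -/

open Module Set
open scoped Quaternion ContDiff

noncomputable section

namespace Vale.Agent.P265.Dis

open Vale.Agent.P265.Loc H185

theorem upper_of
    (hinj : ∀ x : E, G x = 0 → af Qp JL (-g0) 1 x = 0 → Sf Qp (-g0) 1 x = x.2 → ∀ ξ : E,
      fderiv ℝ G x ξ = 0 → fderiv ℝ (af Qp JL (-g0) 1) x ξ = 0 →
      fderiv ℝ (Sf Qp (-g0) 1) x ξ = ξ.2 → ξ = 0)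
    (hcard : {x : E | G x = 0 ∧ af Qp JL (-g0) 1 x = 0 ∧ Sf Qp (-g0) 1 x = x.2}.encard ≤ 16) :
    ∃ (om : FormField V M) (H : ℝ → M → ℝ) (φ : ℝ → M → M), IsSymplectic om ∧
      IsHamiltonianFlow om H φ ∧ NondegFixedPoints V (φ 1) ∧ (Fix0 φ).encard ≤ 16 := by
  obtain ⟨δ, hδ, hκ⟩ := quat_flow contDiff_G (isCompact_norm_G_le le_rfl) fderiv_G_comm G_conj
    contDiff_Qp Qp_zero (neg_ne_zero.2 g0_ne) (fun b hb x hx => Qp_ne hb hx) isOpen_Dom
    (fun x hx => mem_Dom hx) contDiffOn_JL (fun x _ β => fderiv_G_JL x.1 β x.2)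
    (omW := omW) (by
      intro w c a b
      simp only [omW, alW, thW, ThW, deW, dfW, ddW, Prod.smul_fst, Prod.smul_snd, smul_eq_mul,
        Complex.real_smul, Complex.mul_re, Complex.mul_im, Complex.sub_re, Complex.sub_im,
        Complex.add_re, Complex.add_im, Complex.ofReal_re, Complex.ofReal_im]
      ring)
    (fun x hx β η hη => omW_JL (mem_Dom hx) β (tanW_of hη))
    (fun x hx => sphere_of hx) (fun x _ η hη => sphere_tangent η hη) hinj
  have hpos : 0 < δ / 2 := by positivity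
  obtain ⟨H, Φ, h1, h2, h3, h4, h5, h6, h7, h8⟩ := hκ (δ / 2) hpos (by linarith)
  obtain ⟨H', φ, h9, h10, h11⟩ := RL.exists_hamiltonianFlow (Om (δ / 2)) H Φ h1 h2
    (fun t x _ => h3 t x) (fun t x _ => h4.contDiffAt) (fun x _ => h5 x)
    (by
      intro t x hx w hw
      rw [Om_apply]
      exact h6 t x hx w hw) h7
  exact ⟨RL.form (Om (δ / 2)), H', φ, isSymplectic_Om hpos.ne', h9, h10,
    h11.trans (h8.trans hcard)⟩

end Vale.Agent.P265.Dis
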